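import Vale.Agent.P363.KS.Reg.Family

/-!
P363: the gradient of the density of a family and the upper bound on the potential.
-/

noncomputable section

namespace Vale.Agent.P363.Reg

open MeasureTheory Filter Set
open scoped BigOperators Topology ENNReal

namespace Family

variable {v n ln : Space → ℝ} {ψ : ℕ → Space → ℝ} {G : ℕ → Fin 3 → Space → ℝ} {e : ℕ → ℝ}
  {μ M : ℝ}

/-- The potential lies below the Laplacian of the root of the density. -/
theorem pot_le (D : Family v n ln ψ G e μ M) (gn : Fin 3 → Space → ℝ)
    (hgn : HasWeakGrad univ n gn) :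
    ∀ᵐ x, v x - μ ≤ ln x / (4 * n x) - (∑ a, gn a x ^ 2) / (8 * n x ^ 2) := by
  obtain ⟨hsum, hli, hid⟩ := D.identity
  set g : Fin 3 → Space → ℝ := fun a x => 2 * ∑' j, ψ j x * G j a x
  have hb : ∀ j a x, |ψ j x * G j a x| * 2 ≤ ψ j x ^ 2 + gsq (G j) x := fun j a x => by
    have h1 : G j a x ^ 2 ≤ gsq (G j) x :=
      Finset.single_le_sum (f := fun a => G j a x ^ 2) (fun a _ => sq_nonneg _) (Finset.mem_univ a)
    rw [abs_mul]
    nlinarith [sq_nonneg (|ψ j x| - |G j a x|), sq_abs (ψ j x), sq_abs (G j a x)]
  have hs : ∀ᵐ x, ∀ a, Summable fun j => ψ j x * G j a x := by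
    filter_upwards [D.sum, hsum] with x h1 h2 a
    refine (h1.summable.add h2).of_norm_bounded fun j => ?_
    rw [Real.norm_eq_abs]
    nlinarith [hb j a x, abs_nonneg (ψ j x * G j a x)]
  have hgm : ∀ a, AEStronglyMeasurable (g a) volume := fun a =>
    (aestronglyMeasurable_of_tendsto_ae atTop
      (fun N => Finset.aestronglyMeasurable_fun_sum (Finset.range N) fun j _ =>
        (D.eigen j).h1.memLp.1.mul ((D.eigen j).h1.memLp_grad a).1) (by
          filter_upwards [hs] with x hx
          exact (hx a).hasSum.tendsto_sum_nat)).const_mul 2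
  have hg : HasWeakGrad univ n g := by
    refine ⟨D.poisson.1, fun a => ?_, fun η hη a => ?_⟩
    · refine locallyIntegrableOn_of_abs_le isOpen_univ (D.poisson.1.add hli) (hgm a).restrict ?_
      rw [Measure.restrict_univ]
      filter_upwards [D.sum, hsum, hs] with x h1 h2 h3
      simp only [g, Pi.add_apply]
      rw [abs_mul, abs_two]
      have : ‖∑' j, ψ j x * G j a x‖ ≤ (n x + grad2 G x) / 2 :=
        tsum_of_norm_bounded ((h1.add h2.hasSum).div_const 2) fun j => by
          rw [Real.norm_eq_abs]; linarith [hb j a x]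
      rw [Real.norm_eq_abs] at this
      linarith
    · have hA : HasSum (fun j => ∫ x, ψ j x ^ 2 * deriv3 a η x) (∫ x, n x * deriv3 a η x) := by
        refine hasSum_integral_of_dominated_convergence (fun j x => ψ j x ^ 2 * |deriv3 a η x|)
          (fun j => ((D.eigen j).h1.memLp.1.pow 2).mul
            (hη.deriv a).continuous.aestronglyMeasurable)
          (fun j => .of_forall fun x => by
            rw [norm_mul, Real.norm_eq_abs, Real.norm_eq_abs, abs_of_nonneg (sq_nonneg (ψ j x))])
          ?_ ?_ ?_
        · filter_upwards [D.sum] with x hx using (hx.mul_right _).summable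
        · refine ((D.cont.mul (hη.deriv a).continuous.abs).integrable_of_hasCompactSupport
            (hη.deriv a).compact.abs.mul_left).congr ?_
          filter_upwards [D.sum] with x hx
          rw [(hx.mul_right _).tsum_eq]
          rfl
        · filter_upwards [D.sum] with x hx using hx.mul_right _
      have hB : HasSum (fun j => ∫ x, 2 * (ψ j x * G j a x) * η x) (∫ x, g a x * η x) := by
        refine hasSum_integral_of_dominated_convergence
          (fun j x => (ψ j x ^ 2 + gsq (G j) x) * |η x|)
          (fun j => (((D.eigen j).h1.memLp.1.mul ((D.eigen j).h1.memLp_grad a).1).const_mul 2).mul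
            hη.continuous.aestronglyMeasurable)
          (fun j => .of_forall fun x => by
            rw [norm_mul, norm_mul, Real.norm_eq_abs, Real.norm_eq_abs, Real.norm_eq_abs, abs_two,
              mul_comm (2 : ℝ)]
            exact mul_le_mul_of_nonneg_right (hb j a x) (abs_nonneg _)) ?_ ?_ ?_
        · filter_upwards [D.sum, hsum] with x h1 h2 using ((h1.add h2.hasSum).mul_right _).summable
        · refine (integrable_mul_of_tsupport (D.poisson.1.add hli) hη.continuous.abs hη.compact.abs
            (subset_univ _)).congr ?_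
          filter_upwards [D.sum, hsum] with x h1 h2
          rw [((h1.add h2.hasSum).mul_right _).tsum_eq]
          rfl
        · filter_upwards [hs] with x hx using (((hx a).hasSum).mul_left 2).mul_right _
      refine hA.unique (hB.neg.congr_fun fun j => ?_)
      exact (D.grad_sq j).2.2 η hη a
  have he := fun a => hgn.unique isOpen_univ hg a
  simp only [Measure.restrict_univ] at he
  filter_upwards [D.sum, hsum, hs, hid, D.level_sum, ae_all_iff.2 he] with x h1 h2 h3 h4 h5 h6
  have hn := D.pos x
  have hc : ∑ a, gn a x ^ 2 ≤ 4 * (n x * grad2 G x) := by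
    simp only [h6, g, mul_pow, ← Finset.mul_sum]
    norm_num
    refine le_of_tendsto (tendsto_finsetSum _ fun a _ => ((h3 a).hasSum.tendsto_sum_nat).pow 2)
      (.of_forall fun N => ?_)
    calc ∑ a, (∑ j ∈ Finset.range N, ψ j x * G j a x) ^ 2
        ≤ ∑ a, (∑ j ∈ Finset.range N, ψ j x ^ 2) * ∑ j ∈ Finset.range N, G j a x ^ 2 :=
          Finset.sum_le_sum fun a _ => Finset.sum_mul_sq_le_sq_mul_sq _ _ _
      _ = (∑ j ∈ Finset.range N, ψ j x ^ 2) * ∑ j ∈ Finset.range N, gsq (G j) x := by
          rw [← Finset.mul_sum, Finset.sum_comm]; rfl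
      _ ≤ n x * grad2 G x :=
          mul_le_mul (sum_le_hasSum _ (fun i _ => sq_nonneg _) h1)
            (h2.sum_le_tsum _ fun i _ => gsq_nonneg _ _)
            (Finset.sum_nonneg fun i _ => gsq_nonneg _ _) hn.le
  have e9 : ln x / (4 * n x) - v x = (grad2 G x - 2 * levelSum e ψ x) / (2 * n x) +
      (0 : ℝ) := by
    field_simp
    linarith
  have h7 : (∑ a, gn a x ^ 2) / (8 * n x ^ 2) ≤ grad2 G x / (2 * n x) := by
    rw [div_le_div_iff₀ (by positivity) (by positivity)]
    nlinarith [mul_le_mul_of_nonneg_left hc hn.le]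
  have h8 : 2 * levelSum e ψ x / (2 * n x) ≤ μ := by
    rw [div_le_iff₀ (by positivity)]; linarith [h5.2.2]
  rw [sub_div] at e9
  linarith

end Family

end Vale.Agent.P363.Reg
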