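import Vale.Agent.P363.KS.RegularitySpec
import Vale.Agent.P363.Tool.Weak.Product

/-!
P363: a countable family of orbitals in one potential with a regular density: the identity between
the sum of the squared gradients, the potential and the Laplacian of the density.
-/

noncomputable section

namespace Vale.Agent.P363.Reg

open MeasureTheory Filter Set
open scoped BigOperators Topology ENNReal

/-- The squared length of a gradient. -/
def gsq (G : Fin 3 → Space → ℝ) (x : Space) : ℝ := ∑ a, G a x ^ 2

lemma gsq_nonneg (G : Fin 3 → Space → ℝ) (x : Space) : 0 ≤ gsq G x :=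
  Finset.sum_nonneg fun a _ => sq_nonneg _

/-- The sum of the squared gradients of a family. -/
def grad2 (G : ℕ → Fin 3 → Space → ℝ) (x : Space) : ℝ := ∑' j, gsq (G j) x

/-- The weighted sum of the squares of a family. -/
def levelSum (e : ℕ → ℝ) (ψ : ℕ → Space → ℝ) (x : Space) : ℝ := ∑' j, e j * ψ j x ^ 2

/-- Orbitals `ψ j` at the levels `e j` in the potential `v` with density `n`. -/
structure Family (v n ln : Space → ℝ) (ψ : ℕ → Space → ℝ) (G : ℕ → Fin 3 → Space → ℝ)
    (e : ℕ → ℝ) (μ M : ℝ) : Prop where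
  pot_loc : LocMemLp (ENNReal.ofReal (3 / 2)) univ v
  cont : Continuous n
  pos : ∀ x, 0 < n x
  poisson : WeakPoisson univ n ln
  lap_two : LocMemLp 2 univ ln
  eigen : ∀ j, Top.IsFormEigen v (e j) (ψ j) (G j)
  sum : ∀ᵐ x, HasSum (fun j => ψ j x ^ 2) (n x)
  level : ∀ j, |e j| ≤ M ∧ e j ≤ μ

/-- Sums of nonnegative integrable functions with summable integrals. -/
lemma tsum_facts {F : ℕ → Space → ℝ} (hi : ∀ j, Integrable (F j)) (h0 : ∀ j x, 0 ≤ F j x)
    (hs : Summable fun j => ∫ x, F j x) :
    (∀ᵐ x, Summable fun j => F j x) ∧ Integrable (fun x => ∑' j, F j x) ∧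
      HasSum (fun j => ∫ x, F j x) (∫ x, ∑' j, F j x) := by
  have hfin : ∫⁻ x, ∑' j, ENNReal.ofReal (F j x) ≠ ∞ := by
    rw [lintegral_tsum fun j => (hi j).aemeasurable.ennreal_ofReal]
    simp only [← ofReal_integral_eq_lintegral_ofReal (hi _) (.of_forall (h0 _))]
    rw [← ENNReal.ofReal_tsum_of_nonneg (fun j => integral_nonneg (h0 j)) hs]
    exact ENNReal.ofReal_ne_top
  have hae : ∀ᵐ x, Summable fun j => F j x := by
    filter_upwards [ae_lt_top' (AEMeasurable.tsum fun j =>
      (hi j).aemeasurable.ennreal_ofReal) hfin] with x hx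
    refine (ENNReal.summable_toReal hx.ne).congr fun j => ?_
    exact ENNReal.toReal_ofReal (h0 j x)
  have hm : AEStronglyMeasurable (fun x => ∑' j, F j x) volume :=
    aestronglyMeasurable_of_tendsto_ae atTop
      (fun N => Finset.aestronglyMeasurable_sum (Finset.range N) fun j _ => (hi j).1) (by
        filter_upwards [hae] with x hx
        simpa using hx.hasSum.tendsto_sum_nat)
  refine ⟨hae, ⟨hm, ?_⟩, hasSum_integral_of_summable_integral_norm hi (hs.congr fun j => ?_)⟩
  · rw [hasFiniteIntegral_iff_ofReal (.of_forall fun x => tsum_nonneg fun j => h0 j x)]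
    refine lt_of_le_of_lt (le_of_eq (lintegral_congr_ae ?_)) hfin.lt_top
    filter_upwards [hae] with x hx
    exact ENNReal.ofReal_tsum_of_nonneg (fun j => h0 j x) hx
  · simp [Real.norm_eq_abs, abs_of_nonneg (h0 _ _)]

lemma locMemLp_bdd {f g : Space → ℝ} (hf : AEStronglyMeasurable f) (hg : Continuous g)
    (h : ∀ᵐ x, |f x| ≤ g x) (p : ℝ≥0∞) : LocMemLp p univ f := fun K hK hKU =>
  (LocMemLp.of_continuousOn hg.continuousOn K hK hKU).mono hf.restrict
    (ae_restrict_of_ae (h.mono fun x hx => hx.trans (le_abs_self _)))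

namespace Family

variable {v n ln : Space → ℝ} {ψ : ℕ → Space → ℝ} {G : ℕ → Fin 3 → Space → ℝ} {e : ℕ → ℝ}
  {μ M : ℝ}

lemma M_nonneg (D : Family v n ln ψ G e μ M) : 0 ≤ M := (abs_nonneg _).trans (D.level 0).1

lemma sq_le (D : Family v n ln ψ G e μ M) : ∀ᵐ x, ∀ j, ψ j x ^ 2 ≤ n x := by
  filter_upwards [D.sum] with x hx j
  exact le_hasSum hx j fun i _ => sq_nonneg _

lemma level_sum (D : Family v n ln ψ G e μ M) :
    ∀ᵐ x, HasSum (fun j => e j * ψ j x ^ 2) (levelSum e ψ x) ∧
      |levelSum e ψ x| ≤ M * n x ∧ levelSum e ψ x ≤ μ * n x := by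
  filter_upwards [D.sum] with x hx
  have hb : ∀ j, ‖e j * ψ j x ^ 2‖ ≤ M * ψ j x ^ 2 := fun j => by
    rw [Real.norm_eq_abs, abs_mul, abs_of_nonneg (sq_nonneg (ψ j x))]
    exact mul_le_mul_of_nonneg_right (D.level j).1 (sq_nonneg _)
  have hs : Summable fun j => e j * ψ j x ^ 2 :=
    (hx.mul_left M).summable.of_norm_bounded hb
  refine ⟨hs.hasSum, tsum_of_norm_bounded (hx.mul_left M) hb, ?_⟩
  exact hasSum_le (fun j => mul_le_mul_of_nonneg_right (D.level j).2 (sq_nonneg _)) hs.hasSum
    (hx.mul_left μ)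

lemma loc_two (D : Family v n ln ψ G e μ M) (j : ℕ) : LocMemLp 2 univ (ψ j) :=
  LocMemLp.of_memLp (D.eigen j).h1.memLp

lemma loc_grad (D : Family v n ln ψ G e μ M) (j : ℕ) (a : Fin 3) : LocMemLp 2 univ (G j a) :=
  LocMemLp.of_memLp ((D.eigen j).h1.memLp_grad a)

lemma pot_li (D : Family v n ln ψ G e μ M) : LocallyIntegrableOn v univ :=
  D.pot_loc.locallyIntegrableOn (by norm_num) isOpen_univ

lemma meas_level (D : Family v n ln ψ G e μ M) : AEStronglyMeasurable (levelSum e ψ) volume :=
  aestronglyMeasurable_of_tendsto_ae atTop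
    (fun N => Finset.aestronglyMeasurable_sum (Finset.range N) fun j _ =>
      ((D.eigen j).h1.memLp.1.pow 2).const_mul (e j)) (by
        filter_upwards [D.level_sum] with x hx
        simpa using hx.1.tendsto_sum_nat)

lemma loc_level (D : Family v n ln ψ G e μ M) (p : ℝ≥0∞) : LocMemLp p univ (levelSum e ψ) :=
  locMemLp_bdd D.meas_level (D.cont.const_mul M) (D.level_sum.mono fun _ hx => hx.2.1) p

lemma grad_sq (D : Family v n ln ψ G e μ M) (j : ℕ) :
    HasWeakGrad univ (fun x => ψ j x ^ 2) fun a x => 2 * (ψ j x * G j a x) := by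
  have h := (D.eigen j).h1.grad.mul isOpen_univ (D.eigen j).h1.grad (D.loc_two j) (D.loc_grad j)
    (D.loc_two j) (D.loc_grad j)
  exact h.congr_ae isOpen_univ (.of_forall fun x => (sq (ψ j x)).symm)
    fun a => .of_forall fun x => by ring

/-- The equation tested with `η ψ_j`. -/
lemma tested (D : Family v n ln ψ G e μ M) {η : Space → ℝ} (hη : IsBump univ η) (j : ℕ) :
    Integrable (fun x => η x * gsq (G j) x) ∧
      Integrable (fun x => ψ j x ^ 2 * (lap η x / 2 - 2 * (v x - e j) * η x)) ∧
      ∫ x, η x * gsq (G j) x = ∫ x, ψ j x ^ 2 * (lap η x / 2 - 2 * (v x - e j) * η x) := by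
  have h1 := (D.eigen j).h1
  obtain ⟨hg, -, -⟩ := h1.grad.localize isOpen_univ hη
  obtain ⟨m0, m1⟩ := HasWeakGrad.localize_sq (D.loc_two j) (D.loc_grad j) hη
  have key := (D.eigen j).eqn _ _ ⟨m0, m1, hg⟩
  have hp := D.grad_sq j
  have lp : ∀ a, LocallyIntegrableOn (fun x => ψ j x * G j a x) univ := fun a =>
    (D.loc_two j).locallyIntegrableOn_mul (D.loc_grad j a) isOpen_univ
  have iA : Integrable fun x => η x * gsq (G j) x := by
    simp only [gsq, Finset.mul_sum]
    refine integrable_finsetSum _ fun a _ => ?_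
    have : LocallyIntegrableOn (fun x => G j a x ^ 2) univ := by
      simpa [sq] using (D.loc_grad j a).locallyIntegrableOn_mul (D.loc_grad j a) isOpen_univ
    simpa [mul_comm] using hη.integrable_mul this
  have iB : ∀ a, Integrable fun x => ψ j x * G j a x * deriv3 a η x := fun a =>
    (hη.deriv a).integrable_mul (lp a)
  have iC : Integrable fun x => ψ j x ^ 2 * lap η x := hη.integrable_mul_lap hp.1
  have iD : Integrable fun x => (v x - e j) * η x * ψ j x ^ 2 := by
    have hi : Integrable fun x => (v x - e j) * η x :=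
      hη.integrable_mul (D.pot_li.sub (locallyIntegrableOn_const (e j)))
    obtain ⟨B, hB⟩ := hη.compact.exists_bound_of_continuousOn D.cont.continuousOn
    refine (hi.abs.mul_const B).mono' (hi.1.mul ((D.eigen j).h1.memLp.1.pow 2)) ?_
    filter_upwards [D.sq_le] with x hx
    by_cases hs : x ∈ tsupport η
    · rw [norm_mul, Real.norm_eq_abs, Real.norm_eq_abs, abs_of_nonneg (sq_nonneg (ψ j x))]
      exact mul_le_mul_of_nonneg_left ((hx j).trans ((le_abs_self _).trans (hB x hs)))
        (abs_nonneg _)
    · simp [image_eq_zero_of_notMem_tsupport hs]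
  have iE : Integrable fun x => ψ j x ^ 2 * (lap η x / 2 - 2 * (v x - e j) * η x) :=
    ((iC.div_const 2).sub (iD.const_mul 2)).congr (.of_forall fun x => by
      simp only [Pi.sub_apply]; ring)
  refine ⟨iA, iE, ?_⟩
  have e1 : ∫ x, ψ j x ^ 2 * lap η x = -(2 * ∫ x, ∑ a, ψ j x * G j a x * deriv3 a η x) := by
    simp only [lap, Finset.mul_sum]
    rw [integral_finsetSum _ fun a _ => ((hη.deriv a).deriv a).integrable_mul hp.1,
      integral_finsetSum _ fun a _ => iB a, Finset.mul_sum, ← Finset.sum_neg_distrib]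
    refine Finset.sum_congr rfl fun a _ => ?_
    rw [hp.2.2 _ (hη.deriv a) a]
    simp only [mul_assoc, integral_const_mul]
  have e2 : (∫ x, η x * gsq (G j) x) / 2 + (∫ x, ∑ a, ψ j x * G j a x * deriv3 a η x) / 2 +
      ∫ x, (v x - e j) * η x * ψ j x ^ 2 = 0 := by
    rw [← integral_div, ← integral_div, ← integral_add (iA.div_const 2)
      ((integrable_finsetSum _ fun a _ => iB a).div_const 2), ← integral_add ?_ iD, ← key,
      Top.bil]
    · refine integral_congr_ae (.of_forall fun x => ?_)
      simp only [gsq, Fin.sum_univ_three]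
      ring
    · exact (iA.div_const 2).add ((integrable_finsetSum _ fun a _ => iB a).div_const 2)
  calc ∫ x, η x * gsq (G j) x
      = (∫ x, ψ j x ^ 2 * lap η x) / 2 - 2 * ∫ x, (v x - e j) * η x * ψ j x ^ 2 := by linarith
    _ = _ := by
      rw [← integral_div, ← integral_const_mul, ← integral_sub (iC.div_const 2) (iD.const_mul 2)]
      exact integral_congr_ae (.of_forall fun x => by simp only; ring)

/-- The summed equation. -/
lemma summed (D : Family v n ln ψ G e μ M) {η : Space → ℝ} (hη : IsBump univ η) :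
    HasSum (fun j => ∫ x, η x * gsq (G j) x)
      (∫ x, (n x * (lap η x / 2 - 2 * v x * η x) + 2 * levelSum e ψ x * η x)) := by
  simp only [(D.tested hη _).2.2]
  refine hasSum_integral_of_dominated_convergence
    (fun j x => ψ j x ^ 2 * (|lap η x| + 2 * ((|v x| + M) * |η x|)))
    (fun j => (D.tested hη j).2.1.1) (fun j => .of_forall fun x => ?_) ?_ ?_ ?_
  · rw [Real.norm_eq_abs, abs_mul, abs_of_nonneg (sq_nonneg (ψ j x))]
    refine mul_le_mul_of_nonneg_left ((abs_sub _ _).trans (add_le_add ?_ ?_)) (sq_nonneg _)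
    · rw [abs_div, abs_two]; linarith [abs_nonneg (lap η x)]
    · rw [abs_mul, abs_mul, abs_two, mul_assoc]
      exact mul_le_mul_of_nonneg_left (mul_le_mul_of_nonneg_right
        ((abs_sub _ _).trans (add_le_add le_rfl (D.level j).1)) (abs_nonneg _)) zero_le_two
  · filter_upwards [D.sum] with x hx
    exact (hx.mul_right _).summable
  · have i1 : Integrable fun x => n x * |lap η x| :=
      (D.cont.mul hη.lap_continuous.abs).integrable_of_hasCompactSupport
        hη.lap.compact.abs.mul_left
    have i2 : Integrable fun x => n x * (2 * ((|v x| + M) * |η x|)) := by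
      have h := ((D.pot_li.norm).add (locallyIntegrableOn_const M))
      refine (integrable_mul_of_tsupport h ((D.cont.const_mul 2).mul hη.continuous.abs)
        hη.compact.abs.mul_left (subset_univ _)).congr (.of_forall fun x => ?_)
      simp only [Pi.add_apply, Pi.mul_apply, Real.norm_eq_abs]; ring
    refine (i1.add i2).congr ?_
    filter_upwards [D.sum] with x hx
    rw [(hx.mul_right _).tsum_eq, Pi.add_apply]; ring
  · filter_upwards [D.sum, D.level_sum] with x hx he
    have := ((hx.mul_right (lap η x / 2 - 2 * v x * η x)).add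
      ((he.1.mul_left 2).mul_right (η x)))
    exact this.congr_fun fun j => by ring

/-- The squared gradients are summable, their sum is locally integrable, and they satisfy the
identity. -/
theorem identity (D : Family v n ln ψ G e μ M) :
    (∀ᵐ x, Summable fun j => gsq (G j) x) ∧ LocallyIntegrableOn (grad2 G) univ ∧
      ∀ᵐ x, grad2 G x + 2 * v x * n x - 2 * levelSum e ψ x = ln x / 2 := by
  have hloc : ∀ {χ : Space → ℝ}, IsBump univ χ → (∀ x, 0 ≤ χ x) →
      (∀ᵐ x, Summable fun j => χ x * gsq (G j) x) ∧ Integrable (fun x => χ x * grad2 G x) ∧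
        HasSum (fun j => ∫ x, χ x * gsq (G j) x) (∫ x, χ x * grad2 G x) := by
    intro χ hχ h0
    obtain ⟨a1, a2, a3⟩ := tsum_facts (fun j => (D.tested hχ j).1)
      (fun j x => mul_nonneg (h0 x) (gsq_nonneg _ x)) (D.summed hχ).summable
    simp only [tsum_mul_left] at a2 a3
    exact ⟨a1, a2, a3⟩
  have hcut : ∀ K : Set Space, IsCompact K → ∃ χ, IsBump univ χ ∧ (∀ x, 0 ≤ χ x) ∧
      ∀ x ∈ K, χ x = 1 := fun K hK => by
    obtain ⟨χ, hχ, h01, W, -, hKW, hW⟩ := exists_cutoff isOpen_univ hK (subset_univ _)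
    exact ⟨χ, hχ, fun x => (h01 x).1, fun x hx => hW x (hKW hx)⟩
  have hsum : ∀ᵐ x, Summable fun j => gsq (G j) x := by
    have h : ∀ N : ℕ, ∀ᵐ x, x ∈ Metric.closedBall (0 : Space) N →
        Summable fun j => gsq (G j) x := fun N => by
      obtain ⟨χ, hχ, h0, h1⟩ := hcut _ (isCompact_closedBall (0 : Space) N)
      filter_upwards [(hloc hχ h0).1] with x hx hxB
      simpa [h1 x hxB] using hx
    filter_upwards [ae_all_iff.2 h] with x hx
    exact hx ⌈‖x‖⌉₊ (by simpa using Nat.le_ceil ‖x‖)
  have hli : LocallyIntegrableOn (grad2 G) univ := by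
    refine (locallyIntegrableOn_iff isOpen_univ.isLocallyClosed).2 fun K _ hK => ?_
    obtain ⟨χ, hχ, h0, h1⟩ := hcut K hK
    exact ((hloc hχ h0).2.1.integrableOn).congr_fun (fun x hx => by simp [h1 x hx])
      hK.measurableSet
  have hid : ∀ η, IsBump univ η → ∫ x, η x * grad2 G x =
      ∫ x, (n x * (lap η x / 2 - 2 * v x * η x) + 2 * levelSum e ψ x * η x) := by
    intro η hη
    obtain ⟨χ, hχ, h0, h1⟩ := hcut _ hη.compact
    obtain ⟨K, hK⟩ := hη.continuous.bounded_above_of_compact_support hη.compact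
    have hle : ∀ j x, ‖η x * gsq (G j) x‖ ≤ K * (χ x * gsq (G j) x) := fun j x => by
      by_cases hx : x ∈ tsupport η
      · rw [norm_mul, h1 x hx, one_mul, Real.norm_eq_abs (gsq _ _),
          abs_of_nonneg (gsq_nonneg _ _)]
        exact mul_le_mul_of_nonneg_right (hK x) (gsq_nonneg _ _)
      · rw [image_eq_zero_of_notMem_tsupport hx, zero_mul, norm_zero]
        exact mul_nonneg ((norm_nonneg _).trans (hK x)) (mul_nonneg (h0 x) (gsq_nonneg _ _))
    have h := hasSum_integral_of_summable_integral_norm (fun j => (D.tested hη j).1)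
      (((hloc hχ h0).2.2.summable.mul_left K).of_nonneg_of_le
        (fun j => integral_nonneg fun x => norm_nonneg _) fun j => by
          rw [← integral_const_mul]
          exact integral_mono_of_nonneg (.of_forall fun x => norm_nonneg _)
            ((D.tested hχ j).1.const_mul K) (.of_forall (hle j)))
    simp only [tsum_mul_left] at h
    exact h.unique (D.summed hη)
  have lev := D.loc_level 1 |>.locallyIntegrableOn le_rfl isOpen_univ
  have lvn : LocallyIntegrableOn (fun x => n x * v x) univ :=
    D.pot_li.continuousOn_mul D.cont.continuousOn isOpen_univ.isLocallyClosed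
  have e2 : WeakPoisson univ n
      fun x => 2 * grad2 G x + 4 * (n x * v x) - 4 * levelSum e ψ x := by
    refine ⟨D.poisson.1, ((hli.smul (2 : ℝ)).add (lvn.smul (4 : ℝ))).sub (lev.smul (4 : ℝ)),
      fun η hη => ?_⟩
    have h := hid η hη
    have i1 : Integrable fun x => n x * lap η x := hη.integrable_mul_lap D.poisson.1
    have i2 := hη.integrable_mul lvn
    have i3 := hη.integrable_mul lev
    have i4 : Integrable fun x => η x * grad2 G x := by
      simpa [mul_comm] using hη.integrable_mul hli
    have eR : (∫ x, (n x * (lap η x / 2 - 2 * v x * η x) + 2 * levelSum e ψ x * η x)) =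
        (∫ x, n x * lap η x) / 2 - 2 * (∫ x, n x * v x * η x) +
          2 * ∫ x, levelSum e ψ x * η x := by
      rw [← integral_div, ← integral_const_mul, ← integral_const_mul,
        ← integral_sub (i1.div_const 2) (i2.const_mul 2), ← integral_add ?_ (i3.const_mul 2)]
      · exact integral_congr_ae (.of_forall fun x => by simp only; ring)
      · exact (i1.div_const 2).sub (i2.const_mul 2)
    have eL : (∫ x, (2 * grad2 G x + 4 * (n x * v x) - 4 * levelSum e ψ x) * η x) =
        2 * (∫ x, η x * grad2 G x) + 4 * (∫ x, n x * v x * η x) -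
          4 * ∫ x, levelSum e ψ x * η x := by
      rw [← integral_const_mul, ← integral_const_mul, ← integral_const_mul,
        ← integral_add (i4.const_mul 2) (i2.const_mul 4), ← integral_sub ?_ (i3.const_mul 4)]
      · exact integral_congr_ae (.of_forall fun x => by simp only; ring)
      · exact (i4.const_mul 2).add (i2.const_mul 4)
    linarith
  refine ⟨hsum, hli, ?_⟩
  have := D.poisson.unique isOpen_univ e2
  rw [Measure.restrict_univ] at this
  filter_upwards [this] with x hx
  linarith

end Family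

end Vale.Agent.P363.Reg
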