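import Vale.Agent.P363.KS.Reg.Sources

/-!
P363: the common factor of the sources as a fixed point in `L²`.
-/

noncomputable section

namespace Vale.Agent.P363.Reg

open MeasureTheory Filter Set
open scoped BigOperators Topology ENNReal

lemma ennreal_add_sq_le (a b : ℝ≥0∞) : (a + b) ^ 2 ≤ 4 * a ^ 2 + 4 * b ^ 2 := by
  calc (a + b) ^ 2 ≤ (2 * max a b) ^ 2 := pow_le_pow_left' (by
        rw [two_mul]; exact add_le_add (le_max_left _ _) (le_max_right _ _)) 2
    _ = 4 * max a b ^ 2 := by rw [mul_pow]; norm_num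
    _ ≤ _ := by
        rcases le_total a b with h | h
        · rw [max_eq_right h]; exact le_add_self
        · rw [max_eq_left h]; exact le_self_add

namespace Family

variable {v n ln ζ : Space → ℝ} {ψ : ℕ → Space → ℝ} {G : ℕ → Fin 3 → Space → ℝ} {e : ℕ → ℝ}
  {μ M C : ℝ} {B : Set Space}

lemma locZ_facts (D : Family v n ln ψ G e μ M) (hζ : IsBump univ ζ) (hB : MeasurableSet B) :
    Sq (locZ ζ ψ) ∧ MemLp (pairB B n G (locZ ζ ψ)) 2 := by
  have hg : ∀ᵐ x, HasSum (fun j => gsq (locZ ζ ψ j) x) ((∑ a, deriv3 a ζ x ^ 2) * n x) := by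
    filter_upwards [D.sum] with x hx
    refine (hx.mul_left (∑ a, deriv3 a ζ x ^ 2)).congr_fun fun j => ?_
    simp only [gsq, locZ, mul_pow, ← Finset.sum_mul]
  have hZ : Sq (locZ ζ ψ) := ⟨fun j a =>
    (hζ.deriv a).continuous.aestronglyMeasurable.mul (D.eigen j).h1.memLp.1,
    hg.mono fun x hx => hx.summable⟩
  refine ⟨hZ, (memLp_two_iff_integrable_sq (D.pairB_meas hB hZ)).2 ?_⟩
  have hi : Integrable fun x => grad2 G x * ∑ a, deriv3 a ζ x ^ 2 :=
    integrable_mul_of_tsupport D.identity.2.1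
      (continuous_finsetSum _ fun a _ => (hζ.deriv a).continuous.pow 2)
      (HasCompactSupport.intro hζ.compact fun x hx =>
        Finset.sum_eq_zero fun a _ => by simp [deriv3_eq_zero_of_notMem a hx]) (subset_univ _)
  refine hi.mono' ((D.pairB_meas hB hZ).pow 2) ?_
  filter_upwards [D.pairB_sq (B := B) hZ, hg, D.identity.1] with x h1 h2 h3
  rw [Real.norm_eq_abs, abs_of_nonneg (sq_nonneg _)]
  refine h1.trans ?_
  rw [h2.tsum_eq]
  by_cases hx : x ∈ B
  · rw [kap, indicator_of_mem hx, div_mul_eq_mul_div, ← mul_assoc,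
      mul_div_assoc, div_self (D.pos x).ne', mul_one]
  · rw [kap, indicator_of_notMem hx, zero_mul]
    exact mul_nonneg (tsum_nonneg fun j => gsq_nonneg _ _)
      (Finset.sum_nonneg fun a _ => sq_nonneg _)

lemma coef_mul (D : Family v n ln ψ G e μ M) {g : Space → ℝ} (hg : MemLp g 2) :
    (∀ j, MemLp (fun x => coef n ψ j x * g x) 2) ∧
      ∑' j, eLpNorm (fun x => coef n ψ j x * g x) 2 ^ 2 = eLpNorm g 2 ^ 2 := by
  obtain ⟨hca, hcs⟩ := D.coef_facts
  refine ⟨fun j => hg.mono ((hca j).mul hg.1) ?_, ?_⟩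
  · filter_upwards [hcs] with x hx
    rw [norm_mul]
    refine mul_le_of_le_one_left (norm_nonneg _) ?_
    rw [Real.norm_eq_abs, abs_le_one_iff_mul_self_le_one, ← sq]
    exact le_hasSum hx j fun i _ => sq_nonneg _
  have hm : ∀ j, AEMeasurable (fun x => ENNReal.ofReal ((coef n ψ j x * g x) ^ 2)) volume :=
    fun j => (((hca j).aemeasurable.mul hg.1.aemeasurable).pow_const 2).ennreal_ofReal
  simp only [eLp_two_sq]
  rw [← lintegral_tsum hm]
  refine lintegral_congr_ae ?_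
  filter_upwards [hcs] with x hx
  simp only [mul_pow]
  rw [← ENNReal.ofReal_tsum_of_nonneg (fun j => mul_nonneg (sq_nonneg _) (sq_nonneg _))
    (hx.mul_right _).summable, (hx.mul_right _).tsum_eq, one_mul]

lemma source_sq (D : Family v n ln ψ G e μ M) (hζ : IsBump univ ζ) {g : Space → ℝ}
    (hg : MemLp g 2) :
    (∀ j, MemLp (fun x => coef n ψ j x * g x + srcF ζ v n ψ G e j x) 2) ∧
      ∑' j, eLpNorm (fun x => coef n ψ j x * g x + srcF ζ v n ψ G e j x) 2 ^ 2 ≠ ∞ := by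
  obtain ⟨hF, hFs⟩ := D.srcF_sq hζ
  obtain ⟨hc, hs⟩ := D.coef_mul hg
  refine ⟨fun j => (hc j).add (hF j), ?_⟩
  set S : ℝ≥0∞ := ∑' j, ∫⁻ x, ENNReal.ofReal (srcF ζ v n ψ G e j x ^ 2)
  have hg2 : eLpNorm g 2 ^ 2 ≠ ∞ := ENNReal.pow_ne_top hg.eLpNorm_ne_top
  have h4 : (4 : ℝ≥0∞) * eLpNorm g 2 ^ 2 + 4 * S ≠ ∞ :=
    ENNReal.add_ne_top.2 ⟨ENNReal.mul_ne_top ENNReal.ofNat_ne_top hg2,
      ENNReal.mul_ne_top ENNReal.ofNat_ne_top hFs⟩
  refine ne_top_of_le_ne_top h4 ?_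
  rw [← hs, ← ENNReal.tsum_mul_left, ← ENNReal.tsum_mul_left, ← ENNReal.tsum_add]
  refine ENNReal.tsum_le_tsum fun j => ?_
  rw [← eLp_two_sq (srcF ζ v n ψ G e j)]
  refine (pow_le_pow_left' (eLpNorm_add_le (hc j).1 (hF j).1 (by norm_num)) 2).trans ?_
  exact ennreal_add_sq_le _ _

lemma pair_contract (D : Family v n ln ψ G e μ M) (hB : MeasurableSet B)
    (hC : ∀ h, MemLp h 2 → ∃ u U, IsResolvent h u U ∧
      ∀ a, eLpNorm (U a) 6 ≤ ENNReal.ofReal C * eLpNorm h 2)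
    (hw : wt B n G * (3 * ENNReal.ofReal C ^ 2) ≤ 2⁻¹ ^ 2)
    {f g : Space → ℝ} (hf : MemLp f 2) (hg : MemLp g 2) {u u' : ℕ → Space → ℝ}
    {U U' : ℕ → Fin 3 → Space → ℝ} {F : ℕ → Space → ℝ}
    (r : ∀ j, IsResolvent (fun x => coef n ψ j x * f x + F j x) (u j) (U j))
    (r' : ∀ j, IsResolvent (fun x => coef n ψ j x * g x + F j x) (u' j) (U' j))
    (hh : ∀ j, MemLp (fun x => coef n ψ j x * f x + F j x) 2)
    (hh' : ∀ j, MemLp (fun x => coef n ψ j x * g x + F j x) 2) (hS : Sq U) (hS' : Sq U') :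
    eLpNorm (fun x => pairB B n G U x - pairB B n G U' x) 2 ≤
      2⁻¹ * eLpNorm (fun x => f x - g x) 2 := by
  have hfg : MemLp (fun x => f x - g x) 2 := hf.sub hg
  obtain ⟨hc, hs⟩ := D.coef_mul hfg
  have hr : ∀ j, IsResolvent (fun x => coef n ψ j x * (f x - g x)) (fun x => u j x - u' j x)
      fun a x => U j a x - U' j a x := fun j => by
    have h := (r j).sub (r' j) (fun φ Φ hφ => (hh j).integrable_mul hφ.memLp)
      fun φ Φ hφ => (hh' j).integrable_mul hφ.memLp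
    convert h using 1
    funext x
    ring
  refine (ENNReal.pow_le_pow_left_iff two_ne_zero).1 ?_
  rw [eLpNorm_congr_ae (D.pairB_sub hS hS'), mul_pow]
  refine (D.pairB_bound hB (hS.sub hS')).trans ?_
  refine (mul_le_mul' le_rfl (ENNReal.tsum_le_tsum fun j => six_of_exists hC (hr j) (hc j))).trans ?_
  rw [ENNReal.tsum_mul_left, hs, ← mul_assoc]
  exact mul_le_mul' hw le_rfl

/-- A square integrable common factor whose resolvents reproduce it. -/
theorem fixed_source (D : Family v n ln ψ G e μ M) (hζ : IsBump univ ζ) (hB : MeasurableSet B)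
    (hC : ∀ h, MemLp h 2 → ∃ u U, IsResolvent h u U ∧
      ∀ a, eLpNorm (U a) 6 ≤ ENNReal.ofReal C * eLpNorm h 2)
    (hwtop : wt B n G ≠ ∞) (hw : wt B n G * (3 * ENNReal.ofReal C ^ 2) ≤ 2⁻¹ ^ 2) :
    ∃ (m : Space → ℝ) (u : ℕ → Space → ℝ) (U : ℕ → Fin 3 → Space → ℝ), MemLp m 2 ∧
      (∀ j, IsResolvent (fun x => coef n ψ j x * m x + srcF ζ v n ψ G e j x) (u j) (U j)) ∧
      (∀ j, MemLp (fun x => coef n ψ j x * m x + srcF ζ v n ψ G e j x) 2) ∧
      Sq U ∧ ∑' j, ∑ a, eLpNorm (U j a) 6 ^ 2 ≠ ∞ ∧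
      m =ᵐ[volume] fun x => pairB B n G U x - pairB B n G (locZ ζ ψ) x := by
  obtain ⟨hZ, hzm⟩ := D.locZ_facts hζ hB
  set h : Lp ℝ 2 (volume : Measure Space) → ℕ → Space → ℝ :=
    fun f j x => coef n ψ j x * f x + srcF ζ v n ψ G e j x with hdef
  have hh : ∀ f j, MemLp (h f j) 2 := fun f => (D.source_sq hζ (Lp.memLp f)).1
  have hhs : ∀ f, ∑' j, eLpNorm (h f j) 2 ^ 2 ≠ ∞ := fun f => (D.source_sq hζ (Lp.memLp f)).2
  choose u U hU _ using fun f j => hC (h f j) (hh f j)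
  have hSq : ∀ f, Sq (U f) := fun f => resolvent_sq (hU f) (hh f) (by
    simpa only [eLp_two_sq] using hhs f)
  have h6 : ∀ f, ∑' j, ∑ a, eLpNorm (U f j a) 6 ^ 2 ≠ ∞ := fun f =>
    ne_top_of_le_ne_top (ENNReal.mul_ne_top (by finiteness) (hhs f))
      ((ENNReal.tsum_le_tsum fun j => six_of_exists hC (hU f j) (hh f j)).trans_eq
        ENNReal.tsum_mul_left)
  have hwt : ∀ f, MemLp (pairB B n G (U f)) 2 := fun f =>
    ⟨D.pairB_meas hB (hSq f), lt_top_iff_ne_top.2 fun ht => by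
      have := ne_top_of_le_ne_top (ENNReal.mul_ne_top hwtop (h6 f)) (D.pairB_bound hB (hSq f))
      rw [ht] at this
      exact this (by simp)⟩
  have hT : ∀ f, MemLp (fun x => pairB B n G (U f) x - pairB B n G (locZ ζ ψ) x) 2 :=
    fun f => (hwt f).sub hzm
  set T : Lp ℝ 2 (volume : Measure Space) → Lp ℝ 2 (volume : Measure Space) :=
    fun f => (hT f).toLp _
  have hdist : ∀ f g, ‖T f - T g‖ ≤ 2⁻¹ * ‖f - g‖ := by
    intro f g
    have e := D.pair_contract hB hC hw (Lp.memLp f) (Lp.memLp g) (hU f) (hU g) (hh f) (hh g)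
      (hSq f) (hSq g)
    have hfg : MemLp (fun x => f x - g x) 2 := (Lp.memLp f).sub (Lp.memLp g)
    have e2 := ENNReal.toReal_mono (ENNReal.mul_ne_top (by simp) hfg.eLpNorm_ne_top) e
    rw [ENNReal.toReal_mul, ENNReal.toReal_inv, ENNReal.toReal_ofNat] at e2
    refine (le_of_eq ?_).trans (e2.trans_eq ?_)
    · simp only [T]
      rw [← MemLp.toLp_sub, Lp.norm_toLp]
      congr 2
      funext x
      simp only [Pi.sub_apply]; ring
    · rw [Lp.norm_def, eLpNorm_congr_ae (Lp.coeFn_sub f g)]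
      rfl
  have hct : ContractingWith 2⁻¹ T :=
    ⟨by norm_num, LipschitzWith.of_dist_le_mul fun f g => by
      simpa [dist_eq_norm] using hdist f g⟩
  set m : Lp ℝ 2 (volume : Measure Space) := ContractingWith.fixedPoint T hct with hm
  refine ⟨m, u m, U m, Lp.memLp m, hU m, hh m, hSq m, h6 m, ?_⟩
  have e : T m = m := hct.fixedPoint_isFixedPt
  conv_lhs => rw [← e]
  exact (hT m).coeFn_toLp

end Family

end Vale.Agent.P363.Reg
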