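import Vale.Agent.P363.KS.Reg.Small
import Vale.Agent.P363.Tool.YukReg

/-!
P363: the squared gradients are locally in `L³`, the potential is locally square integrable and
the orbitals have continuous representatives.
-/

noncomputable section

namespace Vale.Agent.P363.Reg

open MeasureTheory Filter Set Metric
open scoped BigOperators Topology ENNReal

lemma memLp_restrict_union {f : Space → ℝ} {p : ℝ≥0∞} {s t : Set Space} (hs : MeasurableSet s)
    (ht : MeasurableSet t) (h1 : MemLp f p (volume.restrict s)) (h2 : MemLp f p (volume.restrict t)) :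
    MemLp f p (volume.restrict (s ∪ t)) := by
  rw [← memLp_indicator_iff_restrict hs] at h1
  have h3 : MemLp ((t \ s).indicator f) p := (memLp_indicator_iff_restrict (ht.diff hs)).2
    (h2.mono_measure (Measure.restrict_mono sdiff_subset le_rfl))
  rw [← memLp_indicator_iff_restrict (hs.union ht)]
  refine (h1.add h3).ae_eq (.of_forall fun x => ?_)
  by_cases hx : x ∈ s
  · simp [hx]
  · by_cases hx' : x ∈ t <;> simp [hx, hx']

namespace Family

variable {v n ln : Space → ℝ} {ψ : ℕ → Space → ℝ} {G : ℕ → Fin 3 → Space → ℝ} {e : ℕ → ℝ}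
  {μ M : ℝ} {U : Set Space} {p : ℝ≥0∞}

lemma grad2_loc (D : Family v n ln ψ G e μ M) :
    LocMemLp (ENNReal.ofReal (3 / 2)) univ (grad2 G) := by
  intro K hK hKU
  have hl := D.lap_two.mono_exponent (p := ENNReal.ofReal (3 / 2)) (by
    rw [← ENNReal.ofReal_ofNat]; exact ENNReal.ofReal_le_ofReal (by norm_num))
  have h := ((hl.const_mul (1 / 2)).add
    ((D.pot_loc.mul_continuousOn D.cont.continuousOn).const_mul (-2))).add
      ((D.loc_level (ENNReal.ofReal (3 / 2))).const_mul 2)
  refine (h K hK hKU).ae_eq (ae_restrict_of_ae ?_)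
  filter_upwards [D.identity.2.2] with x hx
  linarith

lemma wt_small (D : Family v n ln ψ G e μ M) {δ : ℝ≥0∞} (hδ : 0 < δ) (x : Space) :
    ∃ r : ℝ, 0 < r ∧ wt (ball x r) n G ≤ δ := by
  set k : Space → ℝ≥0∞ := fun y => ENNReal.ofReal (kap (closedBall x 1) n G y) ^ ((3 : ℝ) / 2)
  have hk : ∫⁻ y, k y ≠ ∞ := by
    have h1 : MemLp (kap (closedBall x 1) n G) (ENNReal.ofReal (3 / 2)) := by
      unfold kap
      rw [memLp_indicator_iff_restrict measurableSet_closedBall]
      refine (((D.grad2_loc).mul_continuousOn (φ := fun y => (n y)⁻¹)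
        (D.cont.inv₀ fun y => (D.pos y).ne').continuousOn) _ (isCompact_closedBall x 1)
        (subset_univ _)).ae_eq (.of_forall fun y => ?_)
      simp only [div_eq_mul_inv, mul_comm]
    refine ne_top_of_le_ne_top (lintegral_rpow_enorm_lt_top_of_eLpNorm_lt_top (by simp)
      ENNReal.ofReal_ne_top h1.2).ne (lintegral_mono fun y => ?_)
    rw [ENNReal.toReal_ofReal (by norm_num)]
    exact ENNReal.rpow_le_rpow (Real.ofReal_le_enorm _) (by norm_num)
  have ht : Tendsto (fun i : ℕ => volume (ball x (1 / ((i : ℝ) + 1)))) atTop (𝓝 0) := by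
    refine tendsto_of_tendsto_of_tendsto_of_le_of_le tendsto_const_nhds ?_ (fun _ => zero_le)
      fun i => (Measure.addHaar_ball_center volume x _).le
    simp only [EuclideanSpace.volume_ball_fin_three]
    have h0 : Tendsto (fun i : ℕ => ENNReal.ofReal (1 / ((i : ℝ) + 1)) ^ 3) atTop (𝓝 0) := by
      simpa using ENNReal.Tendsto.pow (n := 3) (ENNReal.tendsto_ofReal tendsto_one_div_add_atTop_nhds_zero_nat)
    simpa using ENNReal.Tendsto.mul_const h0 (Or.inr ENNReal.ofReal_ne_top)
  have h := tendsto_setLIntegral_zero (μ := volume) hk ht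
  obtain ⟨i, hi⟩ := ((ENNReal.tendsto_nhds_zero.1 h) (δ ^ ((3 : ℝ) / 2))
    (ENNReal.rpow_pos_of_nonneg hδ (by norm_num))).exists
  refine ⟨1 / ((i : ℝ) + 1), by positivity, ?_⟩
  rw [wt, ← ENNReal.rpow_le_rpow_iff (by norm_num : (0 : ℝ) < 3 / 2), ← ENNReal.rpow_mul]
  norm_num
  norm_num at hi
  refine le_trans (le_of_eq ?_) hi
  rw [← lintegral_indicator measurableSet_ball]
  refine lintegral_congr fun y => ?_
  have hsub : ball x ((i : ℝ) + 1)⁻¹ ⊆ closedBall x 1 := fun z hz => by
    refine mem_closedBall.2 (le_trans (mem_ball.1 hz).le ?_)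
    exact inv_le_one_of_one_le₀ (by linarith [(i.cast_nonneg : (0 : ℝ) ≤ i)])
  by_cases hy : y ∈ ball x ((i : ℝ) + 1)⁻¹
  · simp [k, kap, hy, hsub hy]
  · simp [k, kap, hy]

lemma grad2_three (D : Family v n ln ψ G e μ M) (hS : SobolevSixStmt) (hH : HessTestStmt) :
    LocMemLp 3 univ (grad2 G) := by
  obtain ⟨δ, hδ, hsm⟩ := exists_small hS hH
  have key : ∀ x, ∃ W, IsOpen W ∧ x ∈ W ∧ MemLp (grad2 G) 3 (volume.restrict W) := by
    intro x
    obtain ⟨r, hr, hwr⟩ := D.wt_small hδ x
    obtain ⟨ζ, hζ, -, W, hW, hxW, hW1⟩ :=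
      exists_cutoff isOpen_ball (isCompact_singleton (x := x))
        (singleton_subset_iff.2 (mem_ball_self hr))
    refine ⟨W, hW, hxW rfl, ?_⟩
    refine ((hsm _ _ _ _ _ _ _ _ D _ ζ measurableSet_ball hζ.univ hζ.supp hwr).restrict W).ae_eq ?_
    filter_upwards [ae_restrict_mem hW.measurableSet] with y hy
    simp only [gsq, locW, hW1 y hy, deriv3_eq_zero_of_eqOn_one hW hW1 _ hy, one_mul, zero_mul,
      add_zero, grad2]
  intro K hK _
  have : ∃ L, MeasurableSet L ∧ K ⊆ L ∧ MemLp (grad2 G) 3 (volume.restrict L) := by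
    refine hK.induction_on (p := fun s => ∃ L, MeasurableSet L ∧ s ⊆ L ∧
      MemLp (grad2 G) 3 (volume.restrict L)) ⟨∅, .empty, subset_rfl, by simp⟩ ?_ ?_ ?_
    · rintro s t hst ⟨L, h1, h2, h3⟩
      exact ⟨L, h1, hst.trans h2, h3⟩
    · rintro s t ⟨L, h1, h2, h3⟩ ⟨L', h1', h2', h3'⟩
      exact ⟨L ∪ L', h1.union h1', union_subset_union h2 h2', memLp_restrict_union h1 h1' h3 h3'⟩
    · intro x _
      obtain ⟨W, hW, hxW, h⟩ := key x
      exact ⟨W, mem_nhdsWithin_of_mem_nhds (hW.mem_nhds hxW), W, hW.measurableSet, subset_rfl, h⟩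
  obtain ⟨L, -, hKL, h⟩ := this
  exact h.mono_measure (Measure.restrict_mono hKL le_rfl)

/-- The potential is as integrable as the squared gradients and the Laplacian. -/
lemma pot_of_grad2 (D : Family v n ln ψ G e μ M) (hg : LocMemLp p U (grad2 G))
    (hl : LocMemLp p U ln) : LocMemLp p U v := by
  intro K hK hKU
  have h := (((hl.const_mul (1 / 2)).add (hg.const_mul (-1))).add
    (((D.loc_level p).mono (subset_univ U)).const_mul 2)).mul_continuousOn
      (φ := fun x => (2 * n x)⁻¹)
      ((D.cont.const_mul 2).inv₀ fun x => (mul_pos two_pos (D.pos x)).ne').continuousOn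
  refine (h K hK hKU).ae_eq (ae_restrict_of_ae ?_)
  filter_upwards [D.identity.2.2] with x hx
  rw [inv_mul_eq_iff_eq_mul₀ (mul_pos two_pos (D.pos x)).ne']
  linarith

lemma pot_two (D : Family v n ln ψ G e μ M) (hS : SobolevSixStmt) (hH : HessTestStmt) :
    LocMemLp 2 univ v :=
  D.pot_of_grad2 ((D.grad2_three hS hH).mono_exponent (by norm_num)) D.lap_two

lemma abs_le_sqrt (D : Family v n ln ψ G e μ M) : ∀ᵐ x, ∀ j, |ψ j x| ≤ Real.sqrt (n x) := by
  filter_upwards [D.sq_le] with x hx j
  rw [← Real.sqrt_sq_eq_abs]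
  exact Real.sqrt_le_sqrt (hx j)

lemma weakEq (D : Family v n ln ψ G e μ M) (j : ℕ) :
    WeakPoisson univ (ψ j) fun x => 2 * (v x - e j) * ψ j x := by
  have hl : LocallyIntegrableOn (fun x => 2 * (v x - e j) * ψ j x) univ := by
    refine locallyIntegrableOn_of_abs_le isOpen_univ
      (b := fun x => Real.sqrt (n x) * (2 * (|v x| + M))) ?_ ?_ ?_
    · exact ((D.pot_li.norm.add (locallyIntegrableOn_const M)).smul (2 : ℝ)).continuousOn_mul
        D.sqrt_cont.continuousOn isOpen_univ.isLocallyClosed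
    · exact (((D.pot_li.aestronglyMeasurable.sub aestronglyMeasurable_const).const_mul 2).mul
        (D.eigen j).h1.memLp.1.restrict)
    · filter_upwards [ae_restrict_of_ae (D.abs_le_sqrt)] with x hx
      rw [abs_mul, abs_mul, abs_two, mul_comm (Real.sqrt (n x))]
      exact mul_le_mul (mul_le_mul_of_nonneg_left
        ((abs_sub _ _).trans (add_le_add le_rfl (D.level j).1)) zero_le_two) (hx j) (abs_nonneg _)
        (mul_nonneg zero_le_two (add_nonneg (abs_nonneg _) D.M_nonneg))
  refine WeakPoisson.of_grad (D.eigen j).h1.grad hl fun η hη => ?_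
  have h := (D.eigen j).eqn η _ hη.topH1
  have i1 : Integrable fun x => ∑ a, G j a x * deriv3 a η x := integrable_finsetSum _ fun a _ =>
    (hη.deriv a).integrable_mul ((D.eigen j).h1.grad.2.1 a)
  have i2 : Integrable fun x => 2 * (v x - e j) * ψ j x * η x := hη.integrable_mul hl
  rw [eq_neg_iff_add_eq_zero, ← integral_add i1 i2, ← mul_zero (2 : ℝ), ← h, Top.bil,
    ← integral_const_mul]
  exact integral_congr_ae (.of_forall fun x => by ring)

/-- The orbitals have continuous representatives. -/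
theorem exists_cont (D : Family v n ln ψ G e μ M) (hv : LocMemLp 2 univ v) (j : ℕ) :
    ∃ g : Space → ℝ, Continuous g ∧ g =ᵐ[volume] ψ j := by
  obtain ⟨α, -, hα⟩ := Yuk.localHolder 2 (by norm_num)
  have hb : ∀ N : ℕ, ∃ g : Space → ℝ, Continuous g ∧
      ψ j =ᵐ[volume.restrict (ball 0 ((N : ℝ) + 1))] g := by
    intro N
    obtain ⟨C, hC⟩ := hα ((N : ℝ) + 1) ((N : ℝ) + 2) (by positivity) (by linarith)
    set K := closedBall (0 : Space) ((N : ℝ) + 2)
    have hm : MemLp (fun x => 2 * (v x - e j) * ψ j x) 2 (volume.restrict K) := by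
      refine ((((hv.add (LocMemLp.of_continuousOn (f := fun _ => -e j) continuousOn_const)).const_mul
        2).mul_continuousOn D.sqrt_cont.continuousOn) K (isCompact_closedBall _ _)
        (subset_univ _)).of_le (((D.weakEq j).2.1.integrableOn_compact_subset (subset_univ _)
          (isCompact_closedBall _ _)).1) (ae_restrict_of_ae ?_)
      filter_upwards [D.abs_le_sqrt] with x hx
      simp only [norm_mul, Real.norm_eq_abs, abs_two, abs_of_nonneg (Real.sqrt_nonneg (n x)),
        ← sub_eq_add_neg]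
      rw [mul_comm (Real.sqrt (n x))]
      exact mul_le_mul_of_nonneg_left (hx j) (by positivity)
    obtain ⟨g, hg, hge, -⟩ := hC 0 (ψ j) _ ((D.weakEq j).mono (subset_univ _))
      (((D.loc_two j).locallyIntegrableOn one_le_two isOpen_univ).integrableOn_compact_subset
        (subset_univ K) (isCompact_closedBall _ _) |>.mono_set ball_subset_closedBall)
      (by
        rw [ENNReal.ofReal_ofNat]
        exact hm.mono_measure (Measure.restrict_mono ball_subset_closedBall le_rfl))
    exact ⟨g, hg, hge⟩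
  choose g hg hge using hb
  have hag : ∀ {N N' : ℕ}, N ≤ N' → ∀ y ∈ ball (0 : Space) ((N : ℝ) + 1), g N y = g N' y := by
    intro N N' h y hy
    have hsub : ball (0 : Space) ((N : ℝ) + 1) ⊆ ball 0 ((N' : ℝ) + 1) :=
      ball_subset_ball (by simpa using h)
    exact Measure.eqOn_open_of_ae_eq ((hge N).symm.trans
      ((hge N').filter_mono (ae_mono (Measure.restrict_mono hsub le_rfl)))) isOpen_ball
      (hg N).continuousOn (hg N').continuousOn hy
  set g' : Space → ℝ := fun x => g ⌈‖x‖⌉₊ x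
  have heq : ∀ (N : ℕ), ∀ y ∈ ball (0 : Space) ((N : ℝ) + 1), g' y = g N y := fun N y hy => by
    have hy' : y ∈ ball (0 : Space) ((⌈‖y‖⌉₊ : ℝ) + 1) := by
      rw [mem_ball_zero_iff]; linarith [Nat.le_ceil ‖y‖]
    rcases le_total ⌈‖y‖⌉₊ N with h | h
    · exact hag h y hy'
    · exact (hag h y hy).symm
  refine ⟨g', continuous_iff_continuousAt.2 fun x => ?_, ?_⟩
  · have hx : x ∈ ball (0 : Space) ((⌈‖x‖⌉₊ : ℝ) + 1) := by
      rw [mem_ball_zero_iff]; linarith [Nat.le_ceil ‖x‖]
    exact (hg _).continuousAt.congr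
      (eventually_of_mem (isOpen_ball.mem_nhds hx) fun y hy => (heq _ y hy).symm)
  · filter_upwards [ae_all_iff.2 fun N : ℕ =>
      (ae_restrict_iff' measurableSet_ball).1 (hge N)] with x hx
    exact (hx ⌈‖x‖⌉₊ (by rw [mem_ball_zero_iff]; linarith [Nat.le_ceil ‖x‖])).symm

end Family

end Vale.Agent.P363.Reg
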