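import Vale.Agent.P363.KS.Reg.Pair

/-!
P363: a family of orbitals multiplied by a cut-off, as resolvents.
-/

noncomputable section

namespace Vale.Agent.P363.Reg

open MeasureTheory Filter Set
open scoped BigOperators Topology ENNReal

/-- The gradient of `ζ ψ_j`. -/
def locW (ζ : Space → ℝ) (ψ : ℕ → Space → ℝ) (G : ℕ → Fin 3 → Space → ℝ) (j : ℕ) (a : Fin 3)
    (x : Space) : ℝ := ζ x * G j a x + deriv3 a ζ x * ψ j x

/-- Its part with the derivative of the cut-off. -/
def locZ (ζ : Space → ℝ) (ψ : ℕ → Space → ℝ) (j : ℕ) (a : Fin 3) (x : Space) : ℝ :=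
  deriv3 a ζ x * ψ j x

/-- `(1 - Δ) (ζ ψ_j)`. -/
def locH (ζ v : Space → ℝ) (ψ : ℕ → Space → ℝ) (G : ℕ → Fin 3 → Space → ℝ) (e : ℕ → ℝ) (j : ℕ)
    (x : Space) : ℝ :=
  ζ x * ψ j x - 2 * (v x - e j) * ψ j x * ζ x - 2 * (∑ a, deriv3 a ζ x * G j a x) -
    lap ζ x * ψ j x

/-- The coefficient of the orbital in the source. -/
def coef (n : Space → ℝ) (ψ : ℕ → Space → ℝ) (j : ℕ) (x : Space) : ℝ := ψ j x / Real.sqrt (n x)

/-- The singular common factor of the sources. -/
def srcM (ζ n : Space → ℝ) (G : ℕ → Fin 3 → Space → ℝ) (x : Space) : ℝ :=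
  ζ x * grad2 G x / Real.sqrt (n x)

/-- The remaining part of the sources. -/
def srcF (ζ v n : Space → ℝ) (ψ : ℕ → Space → ℝ) (G : ℕ → Fin 3 → Space → ℝ) (e : ℕ → ℝ) (j : ℕ)
    (x : Space) : ℝ := locH ζ v ψ G e j x - coef n ψ j x * srcM ζ n G x

namespace Family

variable {v n ln ζ : Space → ℝ} {ψ : ℕ → Space → ℝ} {G : ℕ → Fin 3 → Space → ℝ} {e : ℕ → ℝ}
  {μ M : ℝ}

lemma sqrt_cont (D : Family v n ln ψ G e μ M) : Continuous fun x => Real.sqrt (n x) :=
  Real.continuous_sqrt.comp D.cont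

lemma sqrt_pos (D : Family v n ln ψ G e μ M) (x : Space) : 0 < Real.sqrt (n x) :=
  Real.sqrt_pos.2 (D.pos x)

lemma coef_facts (D : Family v n ln ψ G e μ M) :
    (∀ j, AEStronglyMeasurable (coef n ψ j) volume) ∧
      ∀ᵐ x, HasSum (fun j => coef n ψ j x ^ 2) 1 := by
  refine ⟨fun j => ((D.eigen j).h1.memLp.1.mul
    (D.sqrt_cont.inv₀ fun x => (D.sqrt_pos x).ne').aestronglyMeasurable).congr
    (.of_forall fun x => (div_eq_mul_inv _ _).symm), ?_⟩
  filter_upwards [D.sum] with x hx
  have h := hx.mul_right (n x)⁻¹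
  rw [mul_inv_cancel₀ (D.pos x).ne'] at h
  refine h.congr_fun fun j => ?_
  rw [coef, div_pow, Real.sq_sqrt (D.pos x).le, div_eq_mul_inv]

lemma topH1_cut (D : Family v n ln ψ G e μ M) (hζ : IsBump univ ζ) (j : ℕ) :
    Top.IsH1 (fun x => ζ x * ψ j x) (locW ζ ψ G j) := by
  obtain ⟨hg, -, -⟩ := (D.eigen j).h1.grad.localize isOpen_univ hζ
  obtain ⟨m0, m1⟩ := HasWeakGrad.localize_sq (D.loc_two j) (D.loc_grad j) hζ
  exact ⟨m0, m1, hg⟩

/-- The localised orbitals are resolvents. -/
theorem loc_resolvent (D : Family v n ln ψ G e μ M) (hS : SobolevSixStmt) (hζ : IsBump univ ζ)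
    (j : ℕ) : IsResolvent (locH ζ v ψ G e j) (fun x => ζ x * ψ j x) (locW ζ ψ G j) ∧
      ∀ φ Φ, Top.IsH1 φ Φ → Integrable fun x => locH ζ v ψ G e j x * φ x := by
  obtain ⟨C, -, hsix⟩ := topH1_six hS
  have hw := D.topH1_cut hζ j
  have hψ := (D.eigen j).h1
  have hv : MemLp (fun x => 2 * (v x - e j) * ψ j x * ζ x) (ENNReal.ofReal (3 / 2)) := by
    have h1 : MemLp (fun x => (v x - e j) * (2 * (Real.sqrt (n x) * ζ x))) (ENNReal.ofReal (3 / 2)) :=
      (D.pot_loc.add (LocMemLp.of_continuousOn (f := fun _ => -e j) continuousOn_const)).memLp_mul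
        ((D.sqrt_cont.mul hζ.continuous).const_mul 2) hζ.compact.mul_left.mul_left (subset_univ _)
        |>.ae_eq (.of_forall fun x => by simp only [Pi.mul_apply]; ring)
    have hvm : AEStronglyMeasurable v volume := by simpa using D.pot_li.aestronglyMeasurable
    refine h1.mono ((((hvm.sub (aestronglyMeasurable_const (b := e j))).const_mul 2).mul hψ.memLp.1).mul
      hζ.continuous.aestronglyMeasurable) ?_
    filter_upwards [D.sq_le] with x hx
    have : |ψ j x| ≤ Real.sqrt (n x) := by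
      rw [← Real.sqrt_sq_eq_abs]; exact Real.sqrt_le_sqrt (hx j)
    simp only [norm_mul, Real.norm_eq_abs, abs_two, abs_of_nonneg (Real.sqrt_nonneg (n x))]
    nlinarith [mul_le_mul_of_nonneg_left this
      (mul_nonneg (abs_nonneg (v x - e j)) (abs_nonneg (ζ x)))]
  have hZ : ∀ a, Top.IsH1 (fun x => deriv3 a ζ x * ψ j x) (locW (deriv3 a ζ) ψ G j) := fun a =>
    D.topH1_cut (hζ.deriv a) j
  have mA : MemLp (fun x => ∑ a, deriv3 a ζ x * G j a x) 2 :=
    memLp_finsetSum _ fun a _ => by
      simpa [mul_comm] using (D.loc_grad j a).memLp_mul (hζ.deriv a).continuous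
        (hζ.deriv a).compact (subset_univ _)
  have mB : MemLp (fun x => lap ζ x * ψ j x) 2 := by
    simpa [mul_comm] using (D.loc_two j).memLp_mul hζ.lap_continuous hζ.lap.compact (subset_univ _)
  have hint : ∀ φ Φ, Top.IsH1 φ Φ → Integrable fun x => locH ζ v ψ G e j x * φ x := fun φ Φ hφ => by
    refine ((((hw.memLp.integrable_mul hφ.memLp).sub
      (integrable_mul_six hv hφ.memLp (hsix φ Φ hφ).1)).sub
      ((mA.integrable_mul hφ.memLp).const_mul 2)).sub (mB.integrable_mul hφ.memLp)).congr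
      (.of_forall fun x => ?_)
    simp only [Pi.sub_apply, Pi.mul_apply, locH]
    ring
  refine ⟨⟨hw, fun φ Φ hφ => ?_⟩, hint⟩
  obtain ⟨hg, -, -⟩ := hφ.grad.localize isOpen_univ hζ
  obtain ⟨m0, m1⟩ := HasWeakGrad.localize_sq (LocMemLp.of_memLp hφ.memLp)
    (fun a => LocMemLp.of_memLp (hφ.memLp_grad a)) hζ
  have key := (D.eigen j).eqn _ _ ⟨m0, m1, hg⟩
  have i1 : ∀ a, Integrable fun x => ζ x * G j a x * Φ a x := fun a => by
    refine MemLp.integrable_mul (p := 2) (q := 2) (f := fun x => ζ x * G j a x) ?_ (hφ.memLp_grad a)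
    simpa [mul_comm] using (D.loc_grad j a).memLp_mul hζ.continuous hζ.compact (subset_univ _)
  have i2 : ∀ a, Integrable fun x => deriv3 a ζ x * G j a x * φ x := fun a => by
    refine MemLp.integrable_mul (p := 2) (q := 2) (f := fun x => deriv3 a ζ x * G j a x) ?_ hφ.memLp
    simpa [mul_comm] using (D.loc_grad j a).memLp_mul (hζ.deriv a).continuous
      (hζ.deriv a).compact (subset_univ _)
  have i3 : Integrable fun x => 2 * (v x - e j) * ψ j x * ζ x * φ x :=
    integrable_mul_six hv hφ.memLp (hsix φ Φ hφ).1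
  have i4 : ∀ a, Integrable fun x => deriv3 a ζ x * ψ j x * Φ a x := fun a =>
    (hZ a).memLp.integrable_mul (hφ.memLp_grad a)
  have i5 : ∀ a, Integrable fun x => locW (deriv3 a ζ) ψ G j a x * φ x := fun a =>
    ((hZ a).memLp_grad a).integrable_mul hφ.memLp
  have ek : (∑ a, ((∫ x, ζ x * G j a x * Φ a x) + ∫ x, deriv3 a ζ x * G j a x * φ x)) +
      ∫ x, 2 * (v x - e j) * ψ j x * ζ x * φ x = 0 := by
    simp only [← integral_add (i1 _) (i2 _)]
    have i12 : ∀ a, Integrable fun x => ζ x * G j a x * Φ a x + deriv3 a ζ x * G j a x * φ x :=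
      fun a => (i1 a).add (i2 a)
    rw [← integral_finsetSum _ fun a _ => i12 a,
      ← integral_add (integrable_finsetSum _ fun a _ => i12 a) i3]
    have h2 : (∫ x, ∑ a, (ζ x * G j a x * Φ a x + deriv3 a ζ x * G j a x * φ x) +
        2 * (v x - e j) * ψ j x * ζ x * φ x) =
        2 * Top.bil v (e j) (ψ j) (G j) (fun x => ζ x * φ x)
          (fun a x => ζ x * Φ a x + deriv3 a ζ x * φ x) := by
      rw [Top.bil, ← integral_const_mul]
      refine integral_congr_ae (.of_forall fun x => ?_)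
      simp only [Fin.sum_univ_three]
      ring
    rw [h2, key, mul_zero]
  have eZ := fun a => ibp_H1 (hZ a) hφ a
  have lhs : (∫ x, (∑ a, locW ζ ψ G j a x * Φ a x + ζ x * ψ j x * φ x)) =
      (∑ a, ((∫ x, ζ x * G j a x * Φ a x) + ∫ x, deriv3 a ζ x * ψ j x * Φ a x)) +
        ∫ x, ζ x * ψ j x * φ x := by
    simp only [← integral_add (i1 _) (i4 _)]
    have i14 : ∀ a, Integrable fun x => ζ x * G j a x * Φ a x + deriv3 a ζ x * ψ j x * Φ a x :=
      fun a => (i1 a).add (i4 a)
    rw [← integral_finsetSum _ fun a _ => i14 a, ← integral_add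
      (integrable_finsetSum _ fun a _ => i14 a) (hw.memLp.integrable_mul hφ.memLp :
        Integrable fun x => ζ x * ψ j x * φ x)]
    refine integral_congr_ae (.of_forall fun x => ?_)
    simp only [locW, Fin.sum_univ_three]
    ring
  have rhs : (∫ x, locH ζ v ψ G e j x * φ x) = (∫ x, ζ x * ψ j x * φ x) -
      (∫ x, 2 * (v x - e j) * ψ j x * ζ x * φ x) -
      ∑ a, ((∫ x, deriv3 a ζ x * G j a x * φ x) + ∫ x, locW (deriv3 a ζ) ψ G j a x * φ x) := by
    simp only [← integral_add (i2 _) (i5 _)]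
    have i25 : ∀ a, Integrable fun x =>
        deriv3 a ζ x * G j a x * φ x + locW (deriv3 a ζ) ψ G j a x * φ x :=
      fun a => (i2 a).add (i5 a)
    have iw : Integrable fun x => ζ x * ψ j x * φ x := hw.memLp.integrable_mul hφ.memLp
    have iw3 : Integrable fun x => ζ x * ψ j x * φ x - 2 * (v x - e j) * ψ j x * ζ x * φ x :=
      iw.sub i3
    rw [← integral_finsetSum _ fun a _ => i25 a, ← integral_sub iw i3,
      ← integral_sub iw3 (integrable_finsetSum _ fun a _ => i25 a)]
    refine integral_congr_ae (.of_forall fun x => ?_)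
    simp only [locH, locW, lap, Fin.sum_univ_three]
    ring
  rw [lhs, rhs]
  simp only [eZ, Finset.sum_add_distrib, Finset.sum_neg_distrib] at ek ⊢
  linarith

/-- The remaining parts of the sources are square summable. -/
theorem srcF_sq (D : Family v n ln ψ G e μ M) (hζ : IsBump univ ζ) :
    (∀ j, MemLp (srcF ζ v n ψ G e j) 2) ∧
      ∑' j, ∫⁻ x, ENNReal.ofReal (srcF ζ v n ψ G e j x ^ 2) ≠ ∞ := by
  obtain ⟨hsum, hli, hid⟩ := D.identity
  have hm : ∀ j, AEStronglyMeasurable (srcF ζ v n ψ G e j) volume := fun j => by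
    have hvm : AEStronglyMeasurable v volume := by
      simpa using D.pot_li.aestronglyMeasurable
    have hgm : AEStronglyMeasurable (grad2 G) volume := by simpa using hli.aestronglyMeasurable
    have hz := hζ.continuous.aestronglyMeasurable (μ := (volume : Measure Space))
    have hψ := (D.eigen j).h1.memLp.1
    refine ((((hz.mul hψ).sub ((((hvm.sub (aestronglyMeasurable_const (b := e j))).const_mul 2).mul hψ).mul
      hz)).sub ((Finset.aestronglyMeasurable_fun_sum Finset.univ (f := fun a x => deriv3 a ζ x * G j a x) fun a _ =>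
        (hζ.deriv a).continuous.aestronglyMeasurable.mul
          ((D.eigen j).h1.memLp_grad a).1).const_mul 2)).sub
      (hζ.lap_continuous.aestronglyMeasurable.mul hψ)).sub
      ((D.coef_facts.1 j).mul ((hz.mul hgm).mul
        (D.sqrt_cont.inv₀ fun x => (D.sqrt_pos x).ne').aestronglyMeasurable)) |>.congr
      (.of_forall fun x => ?_)
    simp only [srcF, locH, srcM, Pi.sub_apply, Pi.mul_apply, Pi.inv_apply, div_eq_mul_inv]
  set k1 : Space → ℝ := fun x => |ζ x| / (2 * n x)
  set k2 : Space → ℝ := fun x => |ζ x| * (1 + 4 * M) + |lap ζ x|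
  set d2 : Space → ℝ := fun x => ∑ a, deriv3 a ζ x ^ 2
  set tot : Space → ℝ := fun x =>
    4 * (k1 x ^ 2 * n x) * ln x ^ 2 + 4 * (k2 x ^ 2 * n x) + 8 * d2 x * grad2 G x
  have hk1 : Continuous k1 :=
    hζ.continuous.abs.div (D.cont.const_mul 2) fun x => (mul_pos two_pos (D.pos x)).ne'
  have hk2 : Continuous k2 := (hζ.continuous.abs.mul continuous_const).add hζ.lap_continuous.abs
  have hd2 : Continuous d2 := continuous_finsetSum _ fun a _ => (hζ.deriv a).continuous.pow 2
  have hout : ∀ x, x ∉ tsupport ζ → k1 x = 0 ∧ k2 x = 0 ∧ d2 x = 0 := fun x hx => by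
    have h1 : ∀ a, deriv3 a ζ x = 0 := fun a => deriv3_eq_zero_of_notMem a hx
    have h2 : lap ζ x = 0 := image_eq_zero_of_notMem_tsupport fun h => hx (tsupport_lap ζ h)
    simp [k1, k2, d2, h1, h2, image_eq_zero_of_notMem_tsupport hx]
  have htot : Integrable tot := by
    have hl : LocallyIntegrableOn (fun x => ln x ^ 2) univ := by
      simpa [sq] using D.lap_two.locallyIntegrableOn_mul D.lap_two isOpen_univ
    have a1 : Integrable fun x => ln x ^ 2 * (4 * (k1 x ^ 2 * n x)) :=
      integrable_mul_of_tsupport hl (((hk1.pow 2).mul D.cont).const_mul 4)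
        (HasCompactSupport.intro hζ.compact fun x hx => by simp [(hout x hx).1]) (subset_univ _)
    have a2 : Integrable fun x => 4 * (k2 x ^ 2 * n x) :=
      (((hk2.pow 2).mul D.cont).const_mul 4).integrable_of_hasCompactSupport
        (HasCompactSupport.intro hζ.compact fun x hx => by simp [(hout x hx).2.1])
    have a3 : Integrable fun x => grad2 G x * (8 * d2 x) :=
      integrable_mul_of_tsupport hli (hd2.const_mul 8)
        (HasCompactSupport.intro hζ.compact fun x hx => by simp [(hout x hx).2.2]) (subset_univ _)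
    refine ((a1.add a2).add a3).congr (.of_forall fun x => ?_)
    simp only [tot, Pi.add_apply]; ring
  have hle : ∀ᵐ x, ∑' j, ENNReal.ofReal (srcF ζ v n ψ G e j x ^ 2) ≤ ENNReal.ofReal (tot x) := by
    filter_upwards [hid, D.sum, D.level_sum, hsum] with x hx hn he hg
    have hn0 := D.pos x
    set C1 := k1 x * |ln x| + k2 x
    have hb : ∀ j, srcF ζ v n ψ G e j x ^ 2 ≤ 2 * C1 ^ 2 * ψ j x ^ 2 + 8 * d2 x * gsq (G j) x := by
      intro j
      set p := ζ x * (1 - ln x / (2 * n x) - 2 * levelSum e ψ x / n x + 2 * e j) - lap ζ x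
      set q := ∑ a, deriv3 a ζ x * G j a x
      have hF : srcF ζ v n ψ G e j x = ψ j x * p - 2 * q := by
        have hs : coef n ψ j x * srcM ζ n G x = ψ j x * ζ x * grad2 G x / n x := by
          rw [coef, srcM, div_mul_div_comm, ← sq, Real.sq_sqrt hn0.le, mul_assoc]
        have hl : ln x / (2 * n x) = (grad2 G x + 2 * v x * n x - 2 * levelSum e ψ x) / n x := by
          rw [hx, div_div]
        simp only [srcF, locH, hs, p, q, hl]
        field_simp
        ring
      have hp : |p| ≤ C1 := by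
        refine (abs_sub _ _).trans ?_
        rw [abs_mul]
        have e1 : |levelSum e ψ x / n x| ≤ M := by
          rw [abs_div, abs_of_pos hn0, div_le_iff₀ hn0]; exact he.2.1
        have e2 : |1 - ln x / (2 * n x) - 2 * levelSum e ψ x / n x + 2 * e j| ≤
            |ln x| / (2 * n x) + (1 + 4 * M) := by
          have e3 : |ln x / (2 * n x)| = |ln x| / (2 * n x) := by
            rw [abs_div, abs_of_pos (mul_pos two_pos hn0)]
          have := (D.level j).1
          rw [abs_le] at this e1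
          rw [mul_div_assoc, abs_le]
          have h4 := abs_le.1 e3.le
          constructor <;> linarith
        refine (add_le_add (mul_le_mul_of_nonneg_left e2 (abs_nonneg _)) le_rfl).trans_eq ?_
        simp only [C1, k1, k2]; ring
      have hq : q ^ 2 ≤ d2 x * gsq (G j) x :=
        Finset.sum_mul_sq_le_sq_mul_sq Finset.univ (fun a => deriv3 a ζ x) fun a => G j a x
      have hp2 : p ^ 2 ≤ C1 ^ 2 := sq_le_sq.2 (hp.trans (le_abs_self _))
      rw [hF]
      nlinarith [sq_nonneg (ψ j x * p + 2 * q), mul_le_mul_of_nonneg_left hp2 (sq_nonneg (ψ j x))]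
    have hs : Summable fun j => 2 * C1 ^ 2 * ψ j x ^ 2 + 8 * d2 x * gsq (G j) x :=
      (hn.summable.mul_left _).add (hg.mul_left _)
    refine (ENNReal.tsum_le_tsum fun j => ENNReal.ofReal_le_ofReal (hb j)).trans ?_
    rw [← ENNReal.ofReal_tsum_of_nonneg (fun j => (sq_nonneg _).trans (hb j)) hs]
    refine ENNReal.ofReal_le_ofReal ?_
    rw [(hn.mul_left _).summable.tsum_add (hg.mul_left _), tsum_mul_left, hn.tsum_eq,
      tsum_mul_left, ← grad2]
    simp only [tot, C1]
    rw [← sq_abs (ln x)]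
    nlinarith [mul_nonneg hn0.le (sq_nonneg (k1 x * |ln x| - k2 x))]
  have hfin : ∑' j, ∫⁻ x, ENNReal.ofReal (srcF ζ v n ψ G e j x ^ 2) ≠ ∞ := by
    rw [← lintegral_tsum fun j => ((hm j).aemeasurable.pow_const 2).ennreal_ofReal]
    exact ((lintegral_mono_ae hle).trans_lt htot.lintegral_lt_top).ne
  refine ⟨fun j => ⟨hm j, ?_⟩, hfin⟩
  have h := ne_top_of_le_ne_top hfin (ENNReal.le_tsum j)
  rw [← eLp_two_sq] at h
  exact (lt_top_iff_ne_top.2 fun h' => h (by rw [h']; simp))

end Family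

end Vale.Agent.P363.Reg
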