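import Vale.Agent.P363.KS.Reg.Interior
import Vale.Agent.P363.Tool.YukW1

/-!
P363: away from the singular set the squared gradients are in `L⁴`: their roots are dominated by
the potential with kernel `|x|⁻²` of one function in `L³`.
-/

noncomputable section

namespace Vale.Agent.P363.Reg

open MeasureTheory Filter Set Metric
open scoped BigOperators Topology ENNReal

/-- The kernel `|x|⁻²`. -/
def ker2 (x : Space) : ℝ≥0∞ := ENNReal.ofReal (‖x‖ ^ (-(2 : ℝ)))

lemma measurable_ker2 : Measurable ker2 := (measurable_norm.pow_const _).ennreal_ofReal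

lemma setLIntegral_ker_le {s : ℝ} (hs0 : 0 ≤ s) (hs : s < 3) {S : Set Space} (hS : MeasurableSet S)
    (hfin : volume S < ∞) :
    ∃ A : ℝ≥0∞, A ≠ ∞ ∧ ∀ x, ∫⁻ y in S, ENNReal.ofReal (‖x - y‖ ^ (-s)) ≤ A := by
  obtain ⟨A, -, hA⟩ := Yuk.setIntegral_rpow_le hs0 hs
  refine ⟨ENNReal.ofReal (A + volume.real S), ENNReal.ofReal_ne_top, fun x => ?_⟩
  obtain ⟨hi, hle⟩ := hA x S hS hfin
  rw [← ofReal_integral_eq_lintegral_ofReal hi
    (.of_forall fun y => Real.rpow_nonneg (norm_nonneg _) _)]
  exact ENNReal.ofReal_le_ofReal hle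

/-- The potential of a function in `L³` on a bounded set is in `L⁸` there. -/
lemma potential_eight {Q : Space → ℝ≥0∞} {x₀ : Space} {R : ℝ} (hm : AEMeasurable Q volume)
    (hQ : ∫⁻ y in closedBall x₀ R, Q y ^ (3 : ℝ) ≠ ∞) :
    ∫⁻ x in closedBall x₀ R, (∫⁻ y in closedBall x₀ R, ker2 (x - y) * Q y) ^ (8 : ℝ) ≠ ∞ := by
  set K := closedBall x₀ R
  obtain ⟨A1, hA1, h1⟩ := setLIntegral_ker_le (by norm_num : (0 : ℝ) ≤ 21 / 8) (by norm_num)
    (measurableSet_closedBall (x := x₀) (ε := R)) measure_closedBall_lt_top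
  obtain ⟨A2, hA2, h2⟩ := setLIntegral_ker_le (by norm_num : (0 : ℝ) ≤ 2) (by norm_num)
    (measurableSet_closedBall (x := x₀) (ε := R)) measure_closedBall_lt_top
  set J := (∫⁻ y in K, Q y ^ (3 : ℝ)) + A1
  have hQm : AEMeasurable Q (volume.restrict K) := hm.restrict
  have hpt : ∀ x, (∫⁻ y in K, ker2 (x - y) * Q y) ^ (8 : ℝ) ≤
      (∫⁻ y in K, ker2 (x - y) * Q y ^ (3 : ℝ)) * J ^ (7 : ℝ) := by
    intro x
    have hk : Measurable fun y => ker2 (x - y) :=
      measurable_ker2.comp (measurable_const.sub measurable_id)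
    have e : ∀ y, ker2 (x - y) * Q y = (ker2 (x - y) * Q y ^ (3 : ℝ)) ^ (1 / 8 : ℝ) *
        (ker2 (x - y) * Q y ^ (5 / 7 : ℝ)) ^ (7 / 8 : ℝ) := fun y => by
      rw [ENNReal.mul_rpow_of_nonneg _ _ (by norm_num), ENNReal.mul_rpow_of_nonneg _ _ (by norm_num),
        ← ENNReal.rpow_mul, ← ENNReal.rpow_mul, mul_mul_mul_comm,
        ← ENNReal.rpow_add_of_nonneg _ _ (by norm_num) (by norm_num),
        ← ENNReal.rpow_add_of_nonneg _ _ (by norm_num) (by norm_num)]
      norm_num
    have hJ : ∫⁻ y in K, ker2 (x - y) * Q y ^ (5 / 7 : ℝ) ≤ J := by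
      refine le_trans (le_of_le_of_eq (lintegral_mono fun y => ?_)
        (lintegral_add_left' (hQm.pow_const (3 : ℝ)) _)) (add_le_add le_rfl (h1 x))
      have h := ENNReal.young_inequality (Q y ^ (5 / 7 : ℝ)) (ker2 (x - y))
        (Real.holderConjugate_iff.2 ⟨by norm_num, by norm_num⟩ :
          ((21 : ℝ) / 5).HolderConjugate (21 / 16))
      rw [mul_comm (Q y ^ _), ← ENNReal.rpow_mul] at h
      refine h.trans (add_le_add ?_ ?_)
      · refine (ENNReal.div_le_of_le_mul' ?_)
        norm_num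
        exact le_mul_of_one_le_left zero_le (ENNReal.one_le_ofReal.2 (by norm_num))
      · refine (ENNReal.div_le_of_le_mul' ?_)
        rw [ker2, ENNReal.ofReal_rpow_of_nonneg (Real.rpow_nonneg (norm_nonneg _) _) (by norm_num),
          ← Real.rpow_mul (norm_nonneg _)]
        norm_num
        exact le_mul_of_one_le_left zero_le (ENNReal.one_le_ofReal.2 (by norm_num))
    calc (∫⁻ y in K, ker2 (x - y) * Q y) ^ (8 : ℝ)
        ≤ ((∫⁻ y in K, ker2 (x - y) * Q y ^ (3 : ℝ)) ^ (1 / 8 : ℝ) *
            (∫⁻ y in K, ker2 (x - y) * Q y ^ (5 / 7 : ℝ)) ^ (7 / 8 : ℝ)) ^ (8 : ℝ) := by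
          refine ENNReal.rpow_le_rpow ?_ (by norm_num)
          simp only [e]
          exact ENNReal.lintegral_mul_norm_pow_le (hk.aemeasurable.mul (hQm.pow_const _))
            (hk.aemeasurable.mul (hQm.pow_const _)) (by norm_num) (by norm_num) (by norm_num)
      _ ≤ _ := by
          rw [ENNReal.mul_rpow_of_nonneg _ _ (by norm_num), ← ENNReal.rpow_mul, ← ENNReal.rpow_mul]
          norm_num
          exact mul_le_mul' le_rfl (pow_le_pow_left' hJ 7)
  have hJt : J ^ (7 : ℝ) ≠ ∞ :=
    ENNReal.rpow_ne_top_of_nonneg (by norm_num) (ENNReal.add_ne_top.2 ⟨hQ, hA1⟩)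
  refine ne_top_of_le_ne_top (ENNReal.mul_ne_top (ENNReal.mul_ne_top hA2 hQ) hJt)
    ((lintegral_mono hpt).trans ?_)
  rw [lintegral_mul_const' _ _ hJt]
  refine mul_le_mul' ?_ le_rfl
  rw [lintegral_lintegral_swap (((measurable_ker2.comp
    (measurable_fst.sub measurable_snd)).aemeasurable).mul ((hQm.pow_const _).comp_snd))]
  rw [← lintegral_const_mul'' _ (hQm.pow_const _)]
  refine lintegral_mono fun y => ?_
  rw [lintegral_mul_const _ (show Measurable fun x => ker2 (x - y) from
    measurable_ker2.comp (measurable_id.sub measurable_const))]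
  refine mul_le_mul' ((le_of_eq ?_).trans (h2 y)) le_rfl
  refine lintegral_congr fun x => ?_
  simp only [ker2, norm_sub_rev x y]

/-- A vector bounded against all rational vectors has length at most the bound. -/
lemma sum_sq_le_of_rat {N : ℕ} {g : ℕ → ℝ} {T : ℝ}
    (h : ∀ c : Fin N → ℚ, |∑ i, (c i : ℝ) * g i| ≤ Real.sqrt (∑ i, (c i : ℝ) ^ 2) * T) :
    ∑ j ∈ Finset.range N, g j ^ 2 ≤ T ^ 2 := by
  have hd : DenseRange fun (c : Fin N → ℚ) (i : Fin N) => (c i : ℝ) :=
    DenseRange.piMap fun _ => Rat.denseRange_cast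
  have hc : ∀ c : Fin N → ℝ, |∑ i, c i * g i| ≤ Real.sqrt (∑ i, c i ^ 2) * T := fun c =>
    hd.induction_on c (isClosed_le
      (continuous_finsetSum _ fun i _ => (continuous_apply i).mul continuous_const).abs
      ((Real.continuous_sqrt.comp
        (continuous_finsetSum _ fun i _ => (continuous_apply i).pow 2)).mul continuous_const)) h
  rw [← Fin.sum_univ_eq_sum_range (fun j => g j ^ 2)]
  set S := ∑ i : Fin N, g i ^ 2
  have hS : 0 ≤ S := Finset.sum_nonneg fun i _ => sq_nonneg _
  have h0 := hc fun i => g i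
  simp only [← sq] at h0
  rw [abs_of_nonneg hS] at h0
  nlinarith [Real.sq_sqrt hS, Real.sqrt_nonneg S, sq_nonneg (Real.sqrt S - T)]

namespace Family

variable {v n ln : Space → ℝ} {ψ : ℕ → Space → ℝ} {G : ℕ → Fin 3 → Space → ℝ} {e : ℕ → ℝ}
  {μ M : ℝ}

/-- The bound of the sources of the combinations of orbitals. -/
def srcBound (v n : Space → ℝ) (M : ℝ) (y : Space) : ℝ := 2 * (|v y| + M) * Real.sqrt (n y)

lemma srcBound_nonneg (D : Family v n ln ψ G e μ M) (y : Space) : 0 ≤ srcBound v n M y :=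
  mul_nonneg (mul_nonneg zero_le_two (add_nonneg (abs_nonneg _) D.M_nonneg)) (Real.sqrt_nonneg _)

lemma srcBound_loc (D : Family v n ln ψ G e μ M) {U : Set Space} {p : ℝ≥0∞}
    (hv : LocMemLp p U v) : LocMemLp p U (srcBound v n M) := fun K hK hKU => by
  refine (((LocMemLp.add (fun K hK hKU => (hv K hK hKU).norm) (LocMemLp.of_continuousOn
    (f := fun _ => M) continuousOn_const)).mul_continuousOn
      (D.sqrt_cont.const_mul 2).continuousOn) K hK hKU).ae_eq (.of_forall fun y => ?_)
  simp only [srcBound, Real.norm_eq_abs]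
  ring

/-- A combination of the orbitals solves an equation with a controlled source. -/
lemma comb (D : Family v n ln ψ G e μ M) {ι : Type*} [Fintype ι] (k : ι → ℕ)
    (hk : Function.Injective k) (c : ι → ℝ) :
    WeakPoisson univ (fun y => ∑ i, c i * ψ (k i) y)
        (fun y => ∑ i, c i * (2 * (v y - e (k i)) * ψ (k i) y)) ∧
      HasWeakGrad univ (fun y => ∑ i, c i * ψ (k i) y) (fun a y => ∑ i, c i * G (k i) a y) ∧
      ∀ᵐ y, |∑ i, c i * ψ (k i) y| ≤ Real.sqrt (∑ i, c i ^ 2) * Real.sqrt (n y) ∧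
        |∑ i, c i * (2 * (v y - e (k i)) * ψ (k i) y)| ≤
          Real.sqrt (∑ i, c i ^ 2) * srcBound v n M y := by
  classical
  refine ⟨?_, HasWeakGrad.sum Finset.univ fun i _ => (D.eigen (k i)).h1.grad.const_mul (c i), ?_⟩
  · have : ∀ s : Finset ι, WeakPoisson univ (fun y => ∑ i ∈ s, c i * ψ (k i) y)
        (fun y => ∑ i ∈ s, c i * (2 * (v y - e (k i)) * ψ (k i) y)) := fun s => by
      induction s using Finset.induction with
      | empty => exact ⟨by simpa using locallyIntegrableOn_zero, by simpa using locallyIntegrableOn_zero,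
          fun η _ => by simp⟩
      | @insert j s hj ih =>
        simp only [Finset.sum_insert hj]
        exact ((D.weakEq (k j)).const_mul (c j)).add ih
    exact this Finset.univ
  · filter_upwards [D.sum] with y hy
    have hn : ∑ i, ψ (k i) y ^ 2 ≤ n y := by
      rw [← Finset.sum_image (f := fun j => ψ j y ^ 2) fun i _ j _ h => hk h]
      exact sum_le_hasSum _ (fun i _ => sq_nonneg _) hy
    have hb : ∀ w : ι → ℝ, ∀ B : ℝ, 0 ≤ B → ∑ i, w i ^ 2 ≤ B ^ 2 →
        |∑ i, c i * w i| ≤ Real.sqrt (∑ i, c i ^ 2) * B := fun w B hB hw => by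
      rw [← Real.sqrt_sq_eq_abs, ← Real.sqrt_sq hB, ← Real.sqrt_mul (Finset.sum_nonneg
        fun i _ => sq_nonneg _)]
      exact Real.sqrt_le_sqrt ((Finset.sum_mul_sq_le_sq_mul_sq _ _ _).trans
        (mul_le_mul_of_nonneg_left hw (Finset.sum_nonneg fun i _ => sq_nonneg _)))
    refine ⟨hb _ _ (Real.sqrt_nonneg _) (by rwa [Real.sq_sqrt (D.pos y).le]),
      hb _ _ (D.srcBound_nonneg y) ?_⟩
    calc ∑ i, (2 * (v y - e (k i)) * ψ (k i) y) ^ 2
        ≤ ∑ i, (2 * (|v y| + M)) ^ 2 * ψ (k i) y ^ 2 := by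
          refine Finset.sum_le_sum fun i _ => ?_
          rw [mul_pow]
          refine mul_le_mul_of_nonneg_right (sq_le_sq.2 ?_) (sq_nonneg _)
          rw [abs_of_nonneg (mul_nonneg zero_le_two (add_nonneg (abs_nonneg _) D.M_nonneg)),
            abs_mul, abs_two]
          exact mul_le_mul_of_nonneg_left
            ((abs_sub _ _).trans (add_le_add le_rfl (D.level _).1)) zero_le_two
      _ ≤ _ := by
          rw [← Finset.mul_sum, srcBound, mul_pow _ (Real.sqrt _), Real.sq_sqrt (D.pos y).le]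
          exact mul_le_mul_of_nonneg_left hn (sq_nonneg _)

/-- The squared gradients in `L⁴` on a ball around which the potential is in `L³`. -/
theorem grad2_four (D : Family v n ln ψ G e μ M) {x₀ : Space} {r R : ℝ} (hr : 0 < r)
    (hrR : r < R) (hv : MemLp (srcBound v n M) 3 (volume.restrict (closedBall x₀ R))) :
    MemLp (grad2 G) 4 (volume.restrict (ball x₀ r)) := by
  obtain ⟨C, hC, hsplit⟩ := Yuk.local_split hr hrR
  set K := closedBall x₀ R
  set Q : Space → ℝ≥0∞ := fun y => ENNReal.ofReal (srcBound v n M y)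
  have hQm : AEMeasurable Q volume := by
    have : AEStronglyMeasurable v volume := by simpa using D.pot_li.aestronglyMeasurable
    exact ((((this.aemeasurable.norm.add_const M).const_mul 2).mul
      D.sqrt_cont.aemeasurable)).ennreal_ofReal
  have hQ3 : ∫⁻ y in K, Q y ^ (3 : ℝ) ≠ ∞ := by
    refine ne_top_of_le_ne_top (lintegral_rpow_enorm_lt_top_of_eLpNorm_lt_top (by norm_num)
      ENNReal.ofNat_ne_top hv.2).ne (lintegral_mono fun y => ?_)
    simp only [ENNReal.toReal_ofNat]
    exact ENNReal.rpow_le_rpow (Real.ofReal_le_enorm _) (by norm_num)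
  set H : Space → ℝ≥0∞ := fun x => ∫⁻ y in K, ker2 (x - y) * Q y with hHd
  have hH8 := potential_eight hQm hQ3
  have hsub : ball x₀ r ⊆ K := (ball_subset_ball hrR.le).trans ball_subset_closedBall
  have hHm : AEMeasurable H (volume.restrict (ball x₀ r)) :=
    AEMeasurable.lintegral_prod_right' (f := fun z : Space × Space => ker2 (z.1 - z.2) * Q z.2)
      (((measurable_ker2.comp (measurable_fst.sub measurable_snd)).aemeasurable).mul
        hQm.restrict.comp_snd)
  have hH8' : ∫⁻ x in ball x₀ r, H x ^ (8 : ℝ) ≠ ∞ :=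
    ne_top_of_le_ne_top hH8 (lintegral_mono_set hsub)
  set C' := C * ∫ y in ball x₀ R, Real.sqrt (n y)
  have hC' : 0 ≤ C' := mul_nonneg hC (integral_nonneg fun y => Real.sqrt_nonneg _)
  have hbound : ∀ N : ℕ, ∀ c : Fin N → ℚ, ∀ a, ∀ᵐ x ∂volume.restrict (ball x₀ r),
      H x ≠ ∞ → |∑ i : Fin N, (c i : ℝ) * G i a x| ≤
        Real.sqrt (∑ i, (c i : ℝ) ^ 2) * (C' + (H x).toReal) := by
    intro N c a
    obtain ⟨hW, hG, hb⟩ := D.comb (fun i : Fin N => (i : ℕ)) Fin.val_injective fun i => (c i : ℝ)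
    set f : Space → ℝ := fun y => ∑ i : Fin N, (c i : ℝ) * ψ i y
    set h : Space → ℝ := fun y => ∑ i : Fin N, (c i : ℝ) * (2 * (v y - e i) * ψ i y)
    set L := Real.sqrt (∑ i, (c i : ℝ) ^ 2) with hLd
    have hL : 0 ≤ L := Real.sqrt_nonneg _
    have hf : IntegrableOn f (ball x₀ R) :=
      (hW.1.integrableOn_compact_subset (subset_univ K) (isCompact_closedBall _ _)).mono_set
        ball_subset_closedBall
    have hh : IntegrableOn h (ball x₀ R) :=
      (hW.2.1.integrableOn_compact_subset (subset_univ K) (isCompact_closedBall _ _)).mono_set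
        ball_subset_closedBall
    obtain ⟨q, S, hS, hqm, hqb, hq0, hfe, hSb⟩ := hsplit x₀ f h (hW.mono (subset_univ _)) hf hh
    have hqi : Integrable q := by
      refine (hh.integrable_indicator measurableSet_ball).abs.mono' hqm (ae_of_all _ fun y => ?_)
      simpa using hqb y
    have hg1 : HasWeakGrad (ball x₀ r) f fun a x => deriv3 a S x - Yuk.potGrad q a x :=
      ((HasWeakGrad.of_contDiffOn isOpen_ball (hS.of_le (by simp)).contDiffOn).sub
        ((Yuk.hasWeakGrad_pot hqi).mono (subset_univ _))).congr_ae isOpen_ball hfe.symm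
          fun _ => EventuallyEq.rfl
    have hA : (∫ y in ball x₀ R, |f y|) ≤ L * ∫ y in ball x₀ R, Real.sqrt (n y) := by
      rw [← integral_const_mul]
      refine integral_mono_ae hf.abs ?_ (ae_restrict_of_ae (hb.mono fun y hy => hy.1))
      exact (D.sqrt_cont.continuousOn.integrableOn_compact (isCompact_closedBall x₀ R)).mono_set
        ball_subset_closedBall |>.const_mul L
    have hqQ : ∀ᵐ y, ENNReal.ofReal |q y| ≤ ENNReal.ofReal L * K.indicator Q y := by
      filter_upwards [hb] with y hy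
      by_cases hyB : y ∈ ball x₀ R
      · rw [indicator_of_mem (ball_subset_closedBall hyB), ← ENNReal.ofReal_mul hL]
        refine ENNReal.ofReal_le_ofReal ((hqb y).trans ?_)
        rw [indicator_of_mem hyB]
        exact hy.2
      · have := hqb y
        rw [indicator_of_notMem hyB, abs_zero] at this
        rw [le_antisymm this (abs_nonneg _), ENNReal.ofReal_zero]
        exact zero_le
    have hP : ∀ x, ENNReal.ofReal |Yuk.potGrad q a x| ≤ ENNReal.ofReal L * H x := fun x => by
      rw [← Real.enorm_eq_ofReal_abs, hHd]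
      simp only
      rw [← lintegral_const_mul' _ _ ENNReal.ofReal_ne_top,
        ← lintegral_indicator measurableSet_closedBall]
      refine (enorm_integral_le_lintegral_enorm _).trans (lintegral_mono_ae ?_)
      filter_upwards [hqQ] with y hy
      rw [enorm_mul, Real.enorm_eq_ofReal_abs, Real.enorm_eq_ofReal_abs]
      refine (mul_le_mul' (ENNReal.ofReal_le_ofReal (Yuk.abs_yukGrad_zero_le a (x - y))) hy).trans ?_
      by_cases hyK : y ∈ K
      · rw [indicator_of_mem hyK, indicator_of_mem hyK]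
        exact le_of_eq (by simp only [ker2]; ring)
      · simp [indicator_of_notMem hyK]
    filter_upwards [(hG.mono (subset_univ _)).unique isOpen_ball hg1 a] with x hx hxH
    rw [hx]
    refine (abs_sub _ _).trans ?_
    rw [mul_add]
    refine add_le_add (((hSb x).2 a).1.trans ?_) ?_
    · calc C * ∫ y in ball x₀ R, |f y| ≤ C * (L * ∫ y in ball x₀ R, Real.sqrt (n y)) :=
            mul_le_mul_of_nonneg_left hA hC
        _ = _ := by ring
    · have := ENNReal.toReal_mono (ENNReal.mul_ne_top ENNReal.ofReal_ne_top hxH) (hP x)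
      rwa [ENNReal.toReal_ofReal (abs_nonneg _), ENNReal.toReal_mul, ENNReal.toReal_ofReal hL] at this
  have hgm : AEStronglyMeasurable (grad2 G) (volume.restrict (ball x₀ r)) := by
    have : AEStronglyMeasurable (grad2 G) volume := by simpa using D.identity.2.1.aestronglyMeasurable
    exact this.restrict
  refine ⟨hgm, (eLpNorm_lt_top_iff_lintegral_rpow_enorm_lt_top (by norm_num)
    ENNReal.ofNat_ne_top).2 ?_⟩
  simp only [ENNReal.toReal_ofNat]
  set B := volume.restrict (ball x₀ r)
  refine lt_of_le_of_lt (lintegral_mono_ae (g := fun x =>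
    ENNReal.ofReal (3 ^ 4 * 2 ^ 7) * (ENNReal.ofReal (C' ^ 8) + H x ^ (8 : ℝ))) ?_) ?_
  · filter_upwards [ae_restrict_of_ae D.identity.1, ae_all_iff.2 fun N : ℕ => ae_all_iff.2
      fun c : Fin N → ℚ => ae_all_iff.2 fun a => hbound N c a,
      ae_lt_top' (hHm.pow_const (8 : ℝ)) hH8'] with x hs hx hH'
    have hH : H x ≠ ∞ := fun hH => by simp [hH] at hH'
    set T := C' + (H x).toReal
    have hT : 0 ≤ T := add_nonneg hC' ENNReal.toReal_nonneg
    have hg : grad2 G x ≤ 3 * T ^ 2 := by
      refine le_of_tendsto' hs.hasSum.tendsto_sum_nat fun N => ?_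
      simp only [gsq]
      rw [Finset.sum_comm]
      refine (Finset.sum_le_card_nsmul _ _ (T ^ 2) fun a _ => ?_).trans_eq (by simp)
      exact sum_sq_le_of_rat fun c => hx N c a hH
    have hg0 : 0 ≤ grad2 G x := tsum_nonneg fun j => gsq_nonneg _ _
    rw [Real.enorm_of_nonneg hg0, ENNReal.ofReal_rpow_of_nonneg hg0 (by norm_num), Real.rpow_ofNat,
      show (H x) ^ (8 : ℝ) = ENNReal.ofReal ((H x).toReal ^ 8) by
        rw [ENNReal.ofReal_pow ENNReal.toReal_nonneg, ENNReal.ofReal_toReal hH]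
        norm_num,
      ← ENNReal.ofReal_add (by positivity) (by positivity), ← ENNReal.ofReal_mul (by norm_num)]
    refine ENNReal.ofReal_le_ofReal ((pow_le_pow_left₀ hg0 hg 4).trans ?_)
    calc (3 * T ^ 2) ^ 4 = 3 ^ 4 * T ^ 8 := by ring
      _ ≤ 3 ^ 4 * (2 ^ 7 * (C' ^ 8 + (H x).toReal ^ 8)) :=
          mul_le_mul_of_nonneg_left (add_pow_le hC' ENNReal.toReal_nonneg 8) (by norm_num)
      _ = _ := by ring
  · rw [lintegral_const_mul' _ _ ENNReal.ofReal_ne_top,
      lintegral_add_left' aemeasurable_const, lintegral_const]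
    refine ENNReal.mul_lt_top ENNReal.ofReal_lt_top (ENNReal.add_lt_top.2 ⟨?_, hH8'.lt_top⟩)
    refine ENNReal.mul_lt_top ENNReal.ofReal_lt_top ?_
    simp only [B, Measure.restrict_apply_univ]
    exact measure_ball_lt_top

end Family

end Vale.Agent.P363.Reg
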