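import Vale.Agent.P363.KS.Reg.Family
import Vale.Agent.P363.Tool.Resolvent
import Vale.Agent.P363.Tool.Weak.H1

/-!
P363: norms and pairings for families of gradients.
-/

noncomputable section

namespace Vale.Agent.P363.Reg

open MeasureTheory Filter Set
open scoped BigOperators Topology ENNReal

lemma topH1_six (hS : SobolevSixStmt) :
    ∃ C : ℝ, 0 ≤ C ∧ ∀ f F, Top.IsH1 f F → MemLp f 6 ∧
      eLpNorm f 6 ^ 2 ≤ ENNReal.ofReal (C * ∫ x, gsq F x) := by
  obtain ⟨C, hC, h⟩ := hS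
  refine ⟨C, hC.le, fun f F hf => ?_⟩
  obtain ⟨h6, hb⟩ := h f F ⟨hf.memLp, hf.memLp_grad, hf.grad⟩
  refine ⟨h6, ?_⟩
  have hI : 0 ≤ ∫ x, |f x| ^ 6 := integral_nonneg fun x => by positivity
  rw [h6.eLpNorm_eq_integral_rpow_norm (by norm_num) ENNReal.ofNat_ne_top,
    ← ENNReal.ofReal_pow (by positivity)]
  refine ENNReal.ofReal_le_ofReal ((le_of_eq ?_).trans (hb.trans (le_of_eq ?_)))
  · simp only [ENNReal.toReal_ofNat, Real.norm_eq_abs, Real.rpow_ofNat]
    rw [← Real.rpow_natCast (_ ^ _) 2, ← Real.rpow_mul hI]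
    norm_num
  · simp only [gsq]
    rw [integral_finsetSum _ fun a _ => (hf.memLp_grad a).integrable_sq]
    rfl

lemma eLp_two_sq (f : Space → ℝ) :
    eLpNorm f 2 ^ 2 = ∫⁻ x, ENNReal.ofReal (f x ^ 2) := by
  rw [eLpNorm_eq_lintegral_rpow_enorm_toReal two_ne_zero ENNReal.ofNat_ne_top]
  simp only [ENNReal.toReal_ofNat, Real.enorm_eq_ofReal_abs]
  rw [← ENNReal.rpow_natCast _ 2, ← ENNReal.rpow_mul]
  simp only [Nat.cast_ofNat, one_div, inv_mul_cancel₀ (two_ne_zero' ℝ), ENNReal.rpow_one]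
  refine lintegral_congr fun x => ?_
  rw [ENNReal.rpow_two, ← ENNReal.ofReal_pow (abs_nonneg _), sq_abs]

lemma ofReal_gsq (F : Fin 3 → Space → ℝ) (x : Space) :
    ENNReal.ofReal (gsq F x) = ∑ a, ENNReal.ofReal (F a x ^ 2) :=
  ENNReal.ofReal_sum_of_nonneg fun a _ => sq_nonneg _

/-- Hölder between a weight in `L^{3/2}` and the square of a function in `L⁶`. -/
lemma weight_le {K : Space → ℝ≥0∞} (hK : AEMeasurable K volume) {f : Space → ℝ}
    (hf : AEStronglyMeasurable f volume) :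
    ∫⁻ x, K x * ENNReal.ofReal (f x ^ 2) ≤
      (∫⁻ x, K x ^ ((3 : ℝ) / 2)) ^ ((2 : ℝ) / 3) * eLpNorm f 6 ^ 2 := by
  refine (ENNReal.lintegral_mul_le_Lp_mul_Lq volume
    (Real.holderConjugate_iff.2 ⟨by norm_num, by norm_num⟩ :
      ((3 : ℝ) / 2).HolderConjugate 3) hK
    ((hf.aemeasurable.pow_const 2).ennreal_ofReal)).trans_eq ?_
  rw [eLpNorm_eq_lintegral_rpow_enorm_toReal (by norm_num) ENNReal.ofNat_ne_top,
    ← ENNReal.rpow_natCast _ 2, ← ENNReal.rpow_mul]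
  simp only [ENNReal.toReal_ofNat, Nat.cast_ofNat, Real.enorm_eq_ofReal_abs]
  rw [show (1 : ℝ) / (3 / 2) = 2 / 3 by norm_num, show (1 : ℝ) / 6 * 2 = 1 / 3 by norm_num]
  congr 2
  refine lintegral_congr fun x => ?_
  rw [ENNReal.ofReal_rpow_of_nonneg (abs_nonneg _) (by norm_num),
    ENNReal.ofReal_rpow_of_nonneg (sq_nonneg _) (by norm_num), ← sq_abs (f x),
    ← Real.rpow_natCast |f x| 2, ← Real.rpow_mul (abs_nonneg _)]
  norm_num

/-- A pairing of two families. -/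
def pairSum (G X : ℕ → Fin 3 → Space → ℝ) (x : Space) : ℝ := ∑' j, ∑ a, G j a x * X j a x

lemma sum_pair_sq_le (G X : Fin 3 → Space → ℝ) (x : Space) :
    (∑ a, G a x * X a x) ^ 2 ≤ gsq G x * gsq X x :=
  Finset.sum_mul_sq_le_sq_mul_sq Finset.univ (fun a => G a x) fun a => X a x

/-- Cauchy-Schwarz for the pairing. -/
lemma pair_facts {G X : ℕ → Fin 3 → Space → ℝ} {x : Space}
    (hG : Summable fun j => gsq (G j) x) (hX : Summable fun j => gsq (X j) x) :
    Summable (fun j => ∑ a, G j a x * X j a x) ∧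
      pairSum G X x ^ 2 ≤ (∑' j, gsq (G j) x) * ∑' j, gsq (X j) x := by
  have hb : ∀ j, ‖∑ a, G j a x * X j a x‖ ≤ gsq (G j) x + gsq (X j) x := fun j => by
    rw [Real.norm_eq_abs, ← Real.sqrt_sq_eq_abs]
    refine (Real.sqrt_le_left (add_nonneg (gsq_nonneg _ _) (gsq_nonneg _ _))).2 ?_
    nlinarith [sum_pair_sq_le (G j) (X j) x, gsq_nonneg (G j) x, gsq_nonneg (X j) x]
  have hs : Summable fun j => ∑ a, G j a x * X j a x :=
    (hG.add hX).of_norm_bounded hb
  refine ⟨hs, le_of_tendsto (hs.hasSum.tendsto_sum_nat.pow 2) (.of_forall fun N => ?_)⟩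
  have h := Finset.sum_mul_sq_le_sq_mul_sq (Finset.range N ×ˢ (Finset.univ : Finset (Fin 3)))
    (fun p => G p.1 p.2 x) fun p => X p.1 p.2 x
  simp only [Finset.sum_product] at h
  exact h.trans (mul_le_mul (hG.sum_le_tsum _ fun j _ => gsq_nonneg _ _)
    (hX.sum_le_tsum _ fun j _ => gsq_nonneg _ _)
    (Finset.sum_nonneg fun j _ => Finset.sum_nonneg fun a _ => sq_nonneg _)
    (tsum_nonneg fun j => gsq_nonneg _ _))

lemma aestronglyMeasurable_gsq {X : Fin 3 → Space → ℝ} (h : ∀ a, AEStronglyMeasurable (X a)) :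
    AEStronglyMeasurable (gsq X) volume :=
  Finset.aestronglyMeasurable_fun_sum _ fun a _ => (h a).pow 2

lemma aestronglyMeasurable_pairSum {G X : ℕ → Fin 3 → Space → ℝ}
    (hG : ∀ j a, AEStronglyMeasurable (G j a)) (hX : ∀ j a, AEStronglyMeasurable (X j a))
    (h : ∀ᵐ x, Summable fun j => ∑ a, G j a x * X j a x) :
    AEStronglyMeasurable (pairSum G X) volume :=
  aestronglyMeasurable_of_tendsto_ae atTop
    (fun N => Finset.aestronglyMeasurable_sum (Finset.range N) fun j _ =>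
      Finset.aestronglyMeasurable_fun_sum _ fun a _ => (hG j a).mul (hX j a)) (by
        filter_upwards [h] with x hx
        simpa [pairSum, Finset.sum_apply] using hx.hasSum.tendsto_sum_nat)

/-- Integration by parts between two functions of `H¹`. -/
lemma ibp_H1 {f φ : Space → ℝ} {F Φ : Fin 3 → Space → ℝ} (hf : Top.IsH1 f F)
    (hφ : Top.IsH1 φ Φ) (a : Fin 3) : ∫ x, f x * Φ a x = -∫ x, F a x * φ x := by
  obtain ⟨η, hη, t0, t1⟩ := exists_bump_seq_univ hφ.grad hφ.memLp hφ.memLp_grad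
  refine tendsto_nhds_unique
    (tendsto_integral_mul_of_L2 hf.memLp (fun k => memLp_bump ((hη k).deriv a) 2)
      (hφ.memLp_grad a) (t1 a)) ?_
  refine ((tendsto_integral_mul_of_L2 (hf.memLp_grad a) (fun k => memLp_bump (hη k) 2)
    hφ.memLp t0).neg).congr fun k => ?_
  exact (hf.grad.2.2 _ (hη k) a).symm

/-- A function with `3 / 2` powers times a function in `L² ∩ L⁶`. -/
lemma integrable_mul_six {g φ : Space → ℝ} (hg : MemLp g (ENNReal.ofReal (3 / 2)))
    (h2 : MemLp φ 2) (h6 : MemLp φ 6) : Integrable fun x => g x * φ x := by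
  have i1 : Integrable fun x => |g x| ^ ((3 : ℝ) / 2) := by
    have h := hg.integrable_norm_rpow (by simp) ENNReal.ofReal_ne_top
    simpa [ENNReal.toReal_ofReal (by norm_num : (0 : ℝ) ≤ 3 / 2)] using h
  have i2 : Integrable fun x => φ x ^ 2 := h2.integrable_sq
  have i3 : Integrable fun x => φ x ^ 6 := by
    have h := h6.integrable_norm_rpow (by norm_num) ENNReal.ofNat_ne_top
    refine h.congr (.of_forall fun x => ?_)
    simp [Real.norm_eq_abs, pow_abs, abs_of_nonneg ((by decide : Even 6).pow_nonneg (φ x))]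
  refine ((i1.add i2).add i3).mono' (hg.1.mul h2.1) (.of_forall fun x => ?_)
  rw [norm_mul, Real.norm_eq_abs, Real.norm_eq_abs]
  simp only [Pi.add_apply]
  have h := Real.young_inequality_of_nonneg (abs_nonneg (g x)) (abs_nonneg (φ x))
    (Real.holderConjugate_iff.2 ⟨by norm_num, by norm_num⟩ :
      ((3 : ℝ) / 2).HolderConjugate 3)
  rw [Real.rpow_ofNat] at h
  have h0 : (0 : ℝ) ≤ |g x| ^ ((3 : ℝ) / 2) := Real.rpow_nonneg (abs_nonneg _) _
  have h1 : |φ x| ^ 3 ≤ φ x ^ 2 + φ x ^ 6 := by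
    rw [← sq_abs (φ x), show φ x ^ 6 = |φ x| ^ 6 by rw [(by decide : Even 6).pow_abs]]
    nlinarith [sq_nonneg (|φ x| ^ 2 - |φ x|), sq_nonneg (|φ x| ^ 3 - |φ x|),
      abs_nonneg (φ x), pow_nonneg (abs_nonneg (φ x)) 3]
  nlinarith [pow_nonneg (abs_nonneg (φ x)) 3]

end Vale.Agent.P363.Reg
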