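import Vale.Agent.P363.KS.Reg.FixedSource

/-!
P363: where the squared gradients over the density are small in `L^{3/2}`, their sum is in `L³`.
-/

noncomputable section

namespace Vale.Agent.P363.Reg

open MeasureTheory Filter Set
open scoped BigOperators Topology ENNReal

namespace Family

variable {v n ln ζ : Space → ℝ} {ψ : ℕ → Space → ℝ} {G : ℕ → Fin 3 → Space → ℝ} {e : ℕ → ℝ}
  {μ M C : ℝ} {B : Set Space}

lemma locW_facts (D : Family v n ln ψ G e μ M) (hζ : IsBump univ ζ) :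
    Sq (locW ζ ψ G) ∧ ∑' j, ∫⁻ x, ENNReal.ofReal (gsq (locW ζ ψ G j) x) ≠ ∞ := by
  have hm : ∀ j a, AEStronglyMeasurable (locW ζ ψ G j a) volume := fun j a =>
    ((D.topH1_cut hζ j).memLp_grad a).1
  set d2 : Space → ℝ := fun x => ∑ a, deriv3 a ζ x ^ 2
  have hd2 : Continuous d2 := continuous_finsetSum _ fun a _ => (hζ.deriv a).continuous.pow 2
  have a1 : Integrable fun x => grad2 G x * (2 * ζ x ^ 2) :=
    integrable_mul_of_tsupport D.identity.2.1 ((hζ.continuous.pow 2).const_mul 2)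
      (HasCompactSupport.intro hζ.compact fun x hx => by
        simp [image_eq_zero_of_notMem_tsupport hx]) (subset_univ _)
  have a2 : Integrable fun x => 2 * d2 x * n x :=
    ((hd2.const_mul 2).mul D.cont).integrable_of_hasCompactSupport
      (HasCompactSupport.intro hζ.compact fun x hx => by
        simp [d2, deriv3_eq_zero_of_notMem _ hx])
  have hfin : ∑' j, ∫⁻ x, ENNReal.ofReal (gsq (locW ζ ψ G j) x) ≠ ∞ := by
    rw [← lintegral_tsum fun j => (aestronglyMeasurable_gsq (hm j)).aemeasurable.ennreal_ofReal]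
    refine ((lintegral_mono_ae (g := fun x =>
      ENNReal.ofReal (grad2 G x * (2 * ζ x ^ 2) + 2 * d2 x * n x)) ?_).trans_lt
      (a1.add a2).lintegral_lt_top).ne
    filter_upwards [D.identity.1, D.sum] with x hg hn
    have hb : ∀ j, gsq (locW ζ ψ G j) x ≤ 2 * ζ x ^ 2 * gsq (G j) x + 2 * d2 x * ψ j x ^ 2 := by
      intro j
      simp only [gsq, locW, d2, Fin.sum_univ_three]
      nlinarith [sq_nonneg (ζ x * G j 0 x - deriv3 0 ζ x * ψ j x),
        sq_nonneg (ζ x * G j 1 x - deriv3 1 ζ x * ψ j x),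
        sq_nonneg (ζ x * G j 2 x - deriv3 2 ζ x * ψ j x)]
    refine (ENNReal.tsum_le_tsum fun j => ENNReal.ofReal_le_ofReal (hb j)).trans (le_of_eq ?_)
    rw [← ENNReal.ofReal_tsum_of_nonneg (fun j => (gsq_nonneg _ _).trans (hb j))
      ((hg.mul_left _).add (hn.mul_left _).summable),
      (hg.mul_left _).tsum_add (hn.mul_left _).summable, tsum_mul_left, tsum_mul_left, hn.tsum_eq,
      ← grad2, mul_comm (2 * ζ x ^ 2)]
  exact ⟨sq_of_summable hm hfin, hfin⟩

/-- The common factor of the true sources. -/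
lemma srcM_eq (D : Family v n ln ψ G e μ M) (hζ : IsBump univ ζ) (hsupp : tsupport ζ ⊆ B) :
    srcM ζ n G =ᵐ[volume]
      fun x => pairB B n G (locW ζ ψ G) x - pairB B n G (locZ ζ ψ) x := by
  have hZ : Sq (locZ ζ ψ) := ⟨fun j a =>
    (hζ.deriv a).continuous.aestronglyMeasurable.mul (D.eigen j).h1.memLp.1, by
    filter_upwards [D.sum] with x hx
    refine (hx.summable.mul_left (∑ a, deriv3 a ζ x ^ 2)).congr fun j => ?_
    simp only [gsq, locZ, mul_pow, ← Finset.sum_mul]⟩
  filter_upwards [D.pairB_sub (B := B) (D.locW_facts hζ).1 hZ] with x hx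
  rw [hx]
  by_cases hxB : x ∈ B
  · simp only [srcM, pairB, indicator_of_mem hxB, pairSum, grad2, locW, locZ, add_sub_cancel_right]
    congr 1
    rw [← tsum_mul_left]
    refine tsum_congr fun j => ?_
    simp only [gsq, Finset.mul_sum]
    exact Finset.sum_congr rfl fun a _ => by ring
  · simp [srcM, pairB, indicator_of_notMem hxB,
      image_eq_zero_of_notMem_tsupport fun h => hxB (hsupp h)]

/-- The resolvents of the fixed point are the localised orbitals. -/
theorem fixed_unique (D : Family v n ln ψ G e μ M) (hS : SobolevSixStmt) (hζ : IsBump univ ζ)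
    (hB : MeasurableSet B) (hsupp : tsupport ζ ⊆ B) {CS : ℝ}
    (h6 : ∀ f F, Top.IsH1 f F → MemLp f 6 ∧
      eLpNorm f 6 ^ 2 ≤ ENNReal.ofReal (CS * ∫ x, gsq F x))
    (hw : wt B n G * ENNReal.ofReal CS ≤ 2⁻¹ ^ 2) {m : Space → ℝ} {u : ℕ → Space → ℝ}
    {U : ℕ → Fin 3 → Space → ℝ}
    (hU : ∀ j, IsResolvent (fun x => coef n ψ j x * m x + srcF ζ v n ψ G e j x) (u j) (U j))
    (hh : ∀ j, MemLp (fun x => coef n ψ j x * m x + srcF ζ v n ψ G e j x) 2) (hUs : Sq U)
    (hUf : ∑' j, ∫⁻ x, ENNReal.ofReal (gsq (U j) x) ≠ ∞)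
    (hm : m =ᵐ[volume] fun x => pairB B n G U x - pairB B n G (locZ ζ ψ) x) :
    ∀ j a, locW ζ ψ G j a =ᵐ[volume] U j a := by
  obtain ⟨hW, hWf⟩ := D.locW_facts hζ
  set X : ℕ → Fin 3 → Space → ℝ := fun j a x => locW ζ ψ G j a x - U j a x
  set d : ℕ → Space → ℝ := fun j x => ζ x * ψ j x - u j x
  have hX : Sq X := hW.sub hUs
  have hr : ∀ j, IsResolvent (fun x => locH ζ v ψ G e j x -
      (coef n ψ j x * m x + srcF ζ v n ψ G e j x)) (d j) (X j) := fun j =>
    (D.loc_resolvent hS hζ j).1.sub (hU j) (D.loc_resolvent hS hζ j).2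
      fun φ Φ hφ => (hh j).integrable_mul hφ.memLp
  have hXi : ∀ j, Integrable (gsq (X j)) := fun j =>
    integrable_finsetSum _ fun a _ => ((hr j).h1.memLp_grad a).integrable_sq
  have hXs : Summable fun j => ∫ x, gsq (X j) x := by
    have hfin : ∑' j, ∫⁻ x, ENNReal.ofReal (gsq (X j) x) ≠ ∞ := by
      refine ne_top_of_le_ne_top (ENNReal.add_ne_top.2 ⟨ENNReal.mul_ne_top ENNReal.ofNat_ne_top hWf,
        ENNReal.mul_ne_top ENNReal.ofNat_ne_top hUf⟩ : 2 * (∑' j, ∫⁻ x,
          ENNReal.ofReal (gsq (locW ζ ψ G j) x)) + 2 * _ ≠ ∞) ?_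
      rw [← ENNReal.tsum_mul_left, ← ENNReal.tsum_mul_left, ← ENNReal.tsum_add]
      refine ENNReal.tsum_le_tsum fun j => ?_
      have m1 := (aestronglyMeasurable_gsq (hW.meas j)).aemeasurable.ennreal_ofReal
      rw [← lintegral_const_mul' _ _ ENNReal.ofNat_ne_top,
        ← lintegral_const_mul' _ _ ENNReal.ofNat_ne_top, ← lintegral_add_left' (m1.const_mul _)]
      refine lintegral_mono fun x => ?_
      rw [show (2 : ℝ≥0∞) = ENNReal.ofReal 2 by simp, ← ENNReal.ofReal_mul (by norm_num),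
        ← ENNReal.ofReal_mul (by norm_num), ← ENNReal.ofReal_add
          (mul_nonneg (by norm_num) (gsq_nonneg _ _)) (mul_nonneg (by norm_num) (gsq_nonneg _ _))]
      refine ENNReal.ofReal_le_ofReal ?_
      simp only [X, gsq, Fin.sum_univ_three]
      nlinarith [sq_nonneg (locW ζ ψ G j 0 x + U j 0 x), sq_nonneg (locW ζ ψ G j 1 x + U j 1 x),
        sq_nonneg (locW ζ ψ G j 2 x + U j 2 x)]
    refine (ENNReal.summable_toReal hfin).congr fun j => ?_
    rw [← ofReal_integral_eq_lintegral_ofReal (hXi j) (.of_forall fun x => gsq_nonneg _ _),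
      ENNReal.toReal_ofReal (integral_nonneg fun x => gsq_nonneg _ _)]
  obtain ⟨hXae, hSi, hSsum⟩ := tsum_facts hXi (fun j x => gsq_nonneg _ x) hXs
  set S : Space → ℝ := fun x => ∑' j, gsq (X j) x
  have hP : ∀ᵐ x, (srcM ζ n G x - m x) ^ 2 ≤ kap B n G x * S x := by
    filter_upwards [D.srcM_eq hζ hsupp, hm, D.pairB_sub (B := B) hW hUs, D.pairB_sq (B := B) hX]
      with x h1 h2 h3 h4
    rw [h1, h2, sub_sub_sub_cancel_right, h3]
    exact h4
  have hk : ∀ j, Integrable (fun x => kap B n G x * d j x ^ 2) ∧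
      ∫ x, kap B n G x * d j x ^ 2 ≤ (∫ x, gsq (X j) x) / 4 := by
    intro j
    have h0 : ∀ x, 0 ≤ kap B n G x * d j x ^ 2 := fun x => mul_nonneg (D.kap_nonneg x) (sq_nonneg _)
    have hA : 0 ≤ (∫ x, gsq (X j) x) / 4 :=
      div_nonneg (integral_nonneg fun x => gsq_nonneg _ _) (by norm_num)
    have hle : ∫⁻ x, ENNReal.ofReal (kap B n G x * d j x ^ 2) ≤
        ENNReal.ofReal ((∫ x, gsq (X j) x) / 4) := by
      simp only [ENNReal.ofReal_mul (D.kap_nonneg _)]
      refine (weight_le (D.aemeasurable_kap hB).ennreal_ofReal (hr j).h1.memLp.1).trans ?_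
      refine (mul_le_mul' le_rfl (h6 _ _ (hr j).h1).2).trans ?_
      rw [ENNReal.ofReal_mul' (integral_nonneg fun x => gsq_nonneg _ _), ← mul_assoc,
        ENNReal.ofReal_div_of_pos (by norm_num : (0 : ℝ) < 4), ENNReal.ofReal_ofNat,
        ENNReal.div_eq_inv_mul]
      refine mul_le_mul' (hw.trans (le_of_eq ?_)) le_rfl
      rw [← ENNReal.inv_pow]
      norm_num
    have hm' : AEStronglyMeasurable (fun x => kap B n G x * d j x ^ 2) volume :=
      (D.aemeasurable_kap hB).aestronglyMeasurable.mul ((hr j).h1.memLp.1.pow 2)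
    refine ⟨⟨hm', ?_⟩, ?_⟩
    · rw [hasFiniteIntegral_iff_ofReal (.of_forall h0)]
      exact hle.trans_lt ENNReal.ofReal_lt_top
    · rw [integral_eq_lintegral_of_nonneg_ae (.of_forall h0) hm']
      exact ENNReal.toReal_le_of_le_ofReal hA hle
  obtain ⟨hca, hcs⟩ := D.coef_facts
  have hc : ∀ j, Integrable fun x => coef n ψ j x ^ 2 * S x := fun j => by
    refine hSi.mono' (((hca j).pow 2).mul hSi.1) ?_
    filter_upwards [hcs] with x hx
    rw [norm_mul, Real.norm_eq_abs, Real.norm_eq_abs, abs_of_nonneg (sq_nonneg _),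
      abs_of_nonneg (tsum_nonneg fun i => gsq_nonneg _ _)]
    exact mul_le_of_le_one_left (tsum_nonneg fun i => gsq_nonneg _ _)
      (le_hasSum hx j fun i _ => sq_nonneg _)
  have hen : ∀ j, 2 * ∫ x, gsq (X j) x ≤
      (∫ x, gsq (X j) x) / 4 + ∫ x, coef n ψ j x ^ 2 * S x := by
    intro j
    have e0 := (hr j).energy
    have e1 : (∫ x, gsq (X j) x) = ∑ a, ∫ x, X j a x ^ 2 :=
      integral_finsetSum _ fun a _ => ((hr j).h1.memLp_grad a).integrable_sq
    have h2 : 0 ≤ ∫ x, d j x ^ 2 := integral_nonneg fun x => sq_nonneg _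
    have i0 : Integrable fun x => (locH ζ v ψ G e j x -
        (coef n ψ j x * m x + srcF ζ v n ψ G e j x)) * d j x := by
      simp only [sub_mul]
      exact ((D.loc_resolvent hS hζ j).2 _ _ (hr j).h1).sub
        ((hh j).integrable_mul (hr j).h1.memLp)
    have h3 : 2 * ∫ x, (locH ζ v ψ G e j x -
        (coef n ψ j x * m x + srcF ζ v n ψ G e j x)) * d j x ≤
        (∫ x, kap B n G x * d j x ^ 2) + ∫ x, coef n ψ j x ^ 2 * S x := by
      rw [← integral_const_mul, ← integral_add (hk j).1 (hc j)]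
      refine integral_mono_ae (i0.const_mul 2) ((hk j).1.add (hc j)) ?_
      filter_upwards [hP, hXae] with x hx _
      have h0 : 0 ≤ kap B n G x * d j x ^ 2 := mul_nonneg (D.kap_nonneg x) (sq_nonneg _)
      have h1 : 0 ≤ coef n ψ j x ^ 2 * S x :=
        mul_nonneg (sq_nonneg _) (tsum_nonneg fun i => gsq_nonneg _ _)
      have hy : (coef n ψ j x * d j x * (srcM ζ n G x - m x)) ^ 2 ≤
          (kap B n G x * d j x ^ 2) * (coef n ψ j x ^ 2 * S x) := by
        rw [mul_pow]
        calc (coef n ψ j x * d j x) ^ 2 * (srcM ζ n G x - m x) ^ 2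
            ≤ (coef n ψ j x * d j x) ^ 2 * (kap B n G x * S x) :=
              mul_le_mul_of_nonneg_left hx (sq_nonneg _)
          _ = _ := by ring
      have e : (locH ζ v ψ G e j x - (coef n ψ j x * m x + srcF ζ v n ψ G e j x)) * d j x =
          coef n ψ j x * d j x * (srcM ζ n G x - m x) := by
        simp only [srcF]; ring
      rw [e]
      nlinarith [sq_nonneg (kap B n G x * d j x ^ 2 - coef n ψ j x ^ 2 * S x)]
    linarith [(hk j).2]
  have hT : ∑' j, ∫ x, gsq (X j) x ≤ 0 := by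
    have hpart : ∀ N : ℕ, 7 / 4 * ∑ j ∈ Finset.range N, ∫ x, gsq (X j) x ≤ ∫ x, S x := by
      intro N
      have h1 : ∑ j ∈ Finset.range N, ∫ x, coef n ψ j x ^ 2 * S x ≤ ∫ x, S x := by
        rw [← integral_finsetSum _ fun j _ => hc j]
        refine integral_mono_ae (integrable_finsetSum _ fun j _ => hc j) hSi ?_
        filter_upwards [hcs] with x hx
        rw [← Finset.sum_mul]
        exact mul_le_of_le_one_left (tsum_nonneg fun i => gsq_nonneg _ _)
          (sum_le_hasSum _ (fun i _ => sq_nonneg _) hx)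
      rw [Finset.mul_sum]
      refine (Finset.sum_le_sum fun j _ => ?_).trans h1
      linarith [hen j]
    have h := le_of_tendsto' ((hSsum.tendsto_sum_nat).const_mul (7 / 4)) hpart
    rw [hSsum.tsum_eq]
    linarith
  intro j a
  have hz : ∫ x, gsq (X j) x = 0 :=
    le_antisymm ((hXs.le_tsum j fun i _ => integral_nonneg fun x => gsq_nonneg _ _).trans hT)
      (integral_nonneg fun x => gsq_nonneg _ _)
  filter_upwards [(integral_eq_zero_iff_of_nonneg (gsq_nonneg _) (hXi j)).1 hz] with x hx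
  have := (Finset.sum_eq_zero_iff_of_nonneg fun a _ => sq_nonneg (X j a x)).1 hx a (Finset.mem_univ a)
  simpa [X, sub_eq_zero] using this

/-- Smallness gives the sum of the squared gradients in `L³`. -/
theorem exists_small (hS : SobolevSixStmt) (hH : HessTestStmt) :
    ∃ δ : ℝ≥0∞, 0 < δ ∧ ∀ (v n ln : Space → ℝ) (ψ : ℕ → Space → ℝ) (G : ℕ → Fin 3 → Space → ℝ)
      (e : ℕ → ℝ) (μ M : ℝ), Family v n ln ψ G e μ M → ∀ (B : Set Space) (ζ : Space → ℝ),
      MeasurableSet B → IsBump univ ζ → tsupport ζ ⊆ B → wt B n G ≤ δ →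
      MemLp (fun x => ∑' j, gsq (locW ζ ψ G j) x) 3 := by
  obtain ⟨C, hC0, hC⟩ := exists_resolvent hS hH
  obtain ⟨CS, hCS, h6⟩ := topH1_six hS
  set L := 3 * ENNReal.ofReal C ^ 2 + ENNReal.ofReal CS + 1
  have hL : L ≠ ∞ := by simp only [L]; finiteness
  refine ⟨2⁻¹ ^ 2 / L, ENNReal.div_pos (by simp) hL,
    fun v n ln ψ G e μ M D B ζ hB hζ hsupp hw => ?_⟩
  have hwL : ∀ c ≤ L, wt B n G * c ≤ 2⁻¹ ^ 2 := fun c hc =>
    (mul_le_mul' le_rfl hc).trans (ENNReal.mul_le_of_le_div hw)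
  have hwtop : wt B n G ≠ ∞ :=
    ne_top_of_le_ne_top (ENNReal.div_ne_top (by simp) (by simp [L])) hw
  obtain ⟨m, u, U, hm2, hU, hh, hUs, h6U, hm⟩ :=
    D.fixed_source hζ hB hC hwtop (hwL _ (le_add_right le_self_add))
  have hsrc := (D.source_sq hζ hm2).2
  have hUf : ∑' j, ∫⁻ x, ENNReal.ofReal (gsq (U j) x) ≠ ∞ := by
    refine ne_top_of_le_ne_top hsrc (ENNReal.tsum_le_tsum fun j => ?_)
    have hi : Integrable (gsq (U j)) :=
      integrable_finsetSum _ fun a _ => ((hU j).h1.memLp_grad a).integrable_sq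
    rw [eLp_two_sq, ← ofReal_integral_eq_lintegral_ofReal hi (.of_forall fun x => gsq_nonneg _ _),
      ← ofReal_integral_eq_lintegral_ofReal (hh j).integrable_sq
        (.of_forall fun x => sq_nonneg _)]
    refine ENNReal.ofReal_le_ofReal ?_
    simp only [gsq]
    rw [integral_finsetSum _ fun a _ => ((hU j).h1.memLp_grad a).integrable_sq]
    have h2 : 0 ≤ ∫ x, u j x ^ 2 := integral_nonneg fun x => sq_nonneg _
    have h3 : 0 ≤ ∑ a, ∫ x, U j a x ^ 2 :=
      Finset.sum_nonneg fun a _ => integral_nonneg fun x => sq_nonneg _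
    linarith [(hU j).bound (hh j)]
  have he := D.fixed_unique hS hζ hB hsupp h6
    (hwL _ (le_trans le_add_self le_self_add)) hU hh hUs hUf hm
  refine (memLp_three hUs h6U).ae_eq ?_
  filter_upwards [ae_all_iff.2 fun p : ℕ × Fin 3 => he p.1 p.2] with x hx
  exact tsum_congr fun j => Finset.sum_congr rfl fun a _ => by rw [hx (j, a)]

end Family

end Vale.Agent.P363.Reg
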