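import Vale.Agent.P363.KS.Reg.Localised

/-!
P363: the pairing restricted to a set, the resolvents of a square summable family of sources, and
the norm of a sum of squares in `L³`.
-/

noncomputable section

namespace Vale.Agent.P363.Reg

open MeasureTheory Filter Set
open scoped BigOperators Topology ENNReal

/-- The squared gradients over the density, on a set. -/
def kap (B : Set Space) (n : Space → ℝ) (G : ℕ → Fin 3 → Space → ℝ) (x : Space) : ℝ :=
  B.indicator (fun x => grad2 G x / n x) x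

/-- The pairing with the gradients over the root of the density, on a set. -/
def pairB (B : Set Space) (n : Space → ℝ) (G X : ℕ → Fin 3 → Space → ℝ) (x : Space) : ℝ :=
  B.indicator (fun x => pairSum G X x / Real.sqrt (n x)) x

/-- The weight of a set. -/
def wt (B : Set Space) (n : Space → ℝ) (G : ℕ → Fin 3 → Space → ℝ) : ℝ≥0∞ :=
  (∫⁻ x, ENNReal.ofReal (kap B n G x) ^ ((3 : ℝ) / 2)) ^ ((2 : ℝ) / 3)

/-- A family with measurable members and square summable gradients. -/
structure Sq (X : ℕ → Fin 3 → Space → ℝ) : Prop where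
  meas : ∀ j a, AEStronglyMeasurable (X j a) volume
  summ : ∀ᵐ x, Summable fun j => gsq (X j) x

lemma Sq.sub {X Y : ℕ → Fin 3 → Space → ℝ} (hX : Sq X) (hY : Sq Y) :
    Sq fun j a x => X j a x - Y j a x := by
  refine ⟨fun j a => (hX.meas j a).sub (hY.meas j a), ?_⟩
  filter_upwards [hX.summ, hY.summ] with x h1 h2
  refine ((h1.mul_left 2).add (h2.mul_left 2)).of_nonneg_of_le (fun j => gsq_nonneg _ _) fun j => ?_
  simp only [gsq, Fin.sum_univ_three]
  nlinarith [sq_nonneg (X j 0 x + Y j 0 x), sq_nonneg (X j 1 x + Y j 1 x),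
    sq_nonneg (X j 2 x + Y j 2 x)]

lemma sq_of_summable {X : ℕ → Fin 3 → Space → ℝ} (hm : ∀ j a, AEStronglyMeasurable (X j a) volume)
    (h : ∑' j, ∫⁻ x, ENNReal.ofReal (gsq (X j) x) ≠ ∞) : Sq X := by
  refine ⟨hm, ?_⟩
  rw [← lintegral_tsum fun j =>
    (aestronglyMeasurable_gsq (hm j)).aemeasurable.ennreal_ofReal] at h
  filter_upwards [ae_lt_top' (AEMeasurable.tsum fun j =>
    (aestronglyMeasurable_gsq (hm j)).aemeasurable.ennreal_ofReal) h] with x hx
  exact (ENNReal.summable_toReal hx.ne).congr fun j => ENNReal.toReal_ofReal (gsq_nonneg _ _)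

namespace Family

variable {v n ln : Space → ℝ} {ψ : ℕ → Space → ℝ} {G : ℕ → Fin 3 → Space → ℝ} {e : ℕ → ℝ}
  {μ M : ℝ} {B : Set Space}

lemma sqG (D : Family v n ln ψ G e μ M) : Sq G :=
  ⟨fun j a => ((D.eigen j).h1.memLp_grad a).1, D.identity.1⟩

lemma aemeasurable_kap (D : Family v n ln ψ G e μ M) (hB : MeasurableSet B) :
    AEMeasurable (kap B n G) volume := by
  have h : AEStronglyMeasurable (grad2 G) volume := by
    simpa using D.identity.2.1.aestronglyMeasurable
  exact (h.aemeasurable.div D.cont.aemeasurable).indicator hB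

lemma pairB_meas (D : Family v n ln ψ G e μ M) (hB : MeasurableSet B)
    {X : ℕ → Fin 3 → Space → ℝ} (hX : Sq X) : AEStronglyMeasurable (pairB B n G X) volume := by
  have hP := aestronglyMeasurable_pairSum D.sqG.meas hX.meas
    (by filter_upwards [D.sqG.summ, hX.summ] with x h1 h2 using (pair_facts h1 h2).1)
  exact ((hP.mul (D.sqrt_cont.inv₀ fun x => (D.sqrt_pos x).ne').aestronglyMeasurable).congr
    (.of_forall fun x => (div_eq_mul_inv _ _).symm)).indicator hB

lemma pairB_sq (D : Family v n ln ψ G e μ M) {X : ℕ → Fin 3 → Space → ℝ} (hX : Sq X) :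
    ∀ᵐ x, pairB B n G X x ^ 2 ≤ kap B n G x * ∑' j, gsq (X j) x := by
  filter_upwards [D.sqG.summ, hX.summ] with x h1 h2
  by_cases hx : x ∈ B
  · simp only [pairB, kap, indicator_of_mem hx]
    rw [div_pow, Real.sq_sqrt (D.pos x).le, div_mul_eq_mul_div]
    exact div_le_div_of_nonneg_right (pair_facts h1 h2).2 (D.pos x).le
  · simp [pairB, kap, indicator_of_notMem hx]

lemma pairB_sub (D : Family v n ln ψ G e μ M) {X Y : ℕ → Fin 3 → Space → ℝ} (hX : Sq X)
    (hY : Sq Y) : (fun x => pairB B n G X x - pairB B n G Y x) =ᵐ[volume]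
      pairB B n G fun j a x => X j a x - Y j a x := by
  filter_upwards [D.sqG.summ, hX.summ, hY.summ] with x h1 h2 h3
  by_cases hx : x ∈ B
  · simp only [pairB, indicator_of_mem hx, pairSum, ← sub_div]
    congr 1
    rw [← (pair_facts h1 h2).1.tsum_sub (pair_facts h1 h3).1]
    simp only [← Finset.sum_sub_distrib, mul_sub]
  · simp [pairB, indicator_of_notMem hx]

lemma kap_nonneg (D : Family v n ln ψ G e μ M) (x : Space) : 0 ≤ kap B n G x :=
  indicator_nonneg (fun y _ => div_nonneg (tsum_nonneg fun j => gsq_nonneg _ _) (D.pos y).le) x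

lemma pairB_bound (D : Family v n ln ψ G e μ M) (hB : MeasurableSet B)
    {X : ℕ → Fin 3 → Space → ℝ} (hX : Sq X) :
    eLpNorm (pairB B n G X) 2 ^ 2 ≤ wt B n G * ∑' j, ∑ a, eLpNorm (X j a) 6 ^ 2 := by
  rw [eLp_two_sq, ← ENNReal.tsum_mul_left]
  have hk := (D.aemeasurable_kap hB).ennreal_ofReal
  calc ∫⁻ x, ENNReal.ofReal (pairB B n G X x ^ 2)
      ≤ ∫⁻ x, ∑' j, ∑ a, ENNReal.ofReal (kap B n G x) * ENNReal.ofReal (X j a x ^ 2) := by
        refine lintegral_mono_ae ?_
        filter_upwards [D.pairB_sq (B := B) hX, hX.summ] with x hx hs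
        refine (ENNReal.ofReal_le_ofReal hx).trans (le_of_eq ?_)
        rw [ENNReal.ofReal_mul (D.kap_nonneg x),
          ENNReal.ofReal_tsum_of_nonneg (fun j => gsq_nonneg _ _) hs, ← ENNReal.tsum_mul_left]
        simp only [ofReal_gsq, Finset.mul_sum]
    _ = ∑' j, ∑ a, ∫⁻ x, ENNReal.ofReal (kap B n G x) * ENNReal.ofReal (X j a x ^ 2) := by
        have hm : ∀ j a, AEMeasurable (fun x =>
            ENNReal.ofReal (kap B n G x) * ENNReal.ofReal (X j a x ^ 2)) volume := fun j a =>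
          hk.mul ((hX.meas j a).aemeasurable.pow_const 2).ennreal_ofReal
        rw [lintegral_tsum fun j => Finset.aemeasurable_fun_sum _ fun a _ => hm j a]
        simp only [lintegral_finsetSum' _ fun a _ => hm _ a]
    _ ≤ _ := ENNReal.tsum_le_tsum fun j => by
        rw [Finset.mul_sum]
        exact Finset.sum_le_sum fun a _ => weight_le hk (hX.meas j a)

end Family

/-- Resolvents of a square summable family of sources. -/
lemma resolvent_sq {h u : ℕ → Space → ℝ} {U : ℕ → Fin 3 → Space → ℝ}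
    (r : ∀ j, IsResolvent (h j) (u j) (U j)) (hm : ∀ j, MemLp (h j) 2)
    (hs : ∑' j, ∫⁻ x, ENNReal.ofReal (h j x ^ 2) ≠ ∞) : Sq U := by
  refine sq_of_summable (fun j a => ((r j).h1.memLp_grad a).1)
    (ne_top_of_le_ne_top hs (ENNReal.tsum_le_tsum fun j => ?_))
  have hi : Integrable (gsq (U j)) :=
    integrable_finsetSum _ fun a _ => ((r j).h1.memLp_grad a).integrable_sq
  rw [← ofReal_integral_eq_lintegral_ofReal hi (.of_forall fun x => gsq_nonneg _ _),
    ← ofReal_integral_eq_lintegral_ofReal (hm j).integrable_sq (.of_forall fun x => sq_nonneg _)]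
  refine ENNReal.ofReal_le_ofReal ?_
  simp only [gsq]
  rw [integral_finsetSum _ fun a _ => ((r j).h1.memLp_grad a).integrable_sq]
  have h1 : 0 ≤ ∫ x, u j x ^ 2 := integral_nonneg fun x => sq_nonneg _
  have h2 : 0 ≤ ∑ a, ∫ x, U j a x ^ 2 :=
    Finset.sum_nonneg fun a _ => integral_nonneg fun x => sq_nonneg _
  linarith [(r j).bound (hm j)]

/-- The bound in `L⁶` passes to every resolvent. -/
lemma six_of_exists {C : ℝ}
    (hC : ∀ h, MemLp h 2 → ∃ u U, IsResolvent h u U ∧
      ∀ a, eLpNorm (U a) 6 ≤ ENNReal.ofReal C * eLpNorm h 2)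
    {h u : Space → ℝ} {U : Fin 3 → Space → ℝ} (r : IsResolvent h u U) (hm : MemLp h 2) :
    ∑ a, eLpNorm (U a) 6 ^ 2 ≤ 3 * ENNReal.ofReal C ^ 2 * eLpNorm h 2 ^ 2 := by
  obtain ⟨u', U', r', h6⟩ := hC h hm
  have he := (r.unique r' fun φ Φ hφ => hm.integrable_mul hφ.memLp).2
  refine (Finset.sum_le_card_nsmul Finset.univ _ (ENNReal.ofReal C ^ 2 * eLpNorm h 2 ^ 2)
    fun a _ => ?_).trans_eq ?_
  · rw [eLpNorm_congr_ae (he a), ← mul_pow]
    exact pow_le_pow_left' (h6 a) 2
  · simp [mul_assoc]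

lemma eLp_sq_three (f : Space → ℝ) :
    eLpNorm (fun x => f x ^ 2) 3 = eLpNorm f 6 ^ 2 := by
  have h := eLpNorm_norm_rpow (μ := (volume : Measure Space)) (p := (3 : ℝ≥0∞)) f two_pos
  simp only [Real.norm_eq_abs, Real.rpow_two, sq_abs] at h
  rw [h, ENNReal.rpow_two]
  congr 2
  norm_num

/-- The sum of the squares is in `L³` if the members are square summable in `L⁶`. -/
lemma memLp_three {X : ℕ → Fin 3 → Space → ℝ} (hX : Sq X)
    (h : ∑' j, ∑ a, eLpNorm (X j a) 6 ^ 2 ≠ ∞) : MemLp (fun x => ∑' j, gsq (X j) x) 3 := by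
  have hlim : ∀ᵐ x, Tendsto (fun N => ∑ j ∈ Finset.range N, gsq (X j) x) atTop
      (𝓝 (∑' j, gsq (X j) x)) := by
    filter_upwards [hX.summ] with x hx
    exact hx.hasSum.tendsto_sum_nat
  have hm : ∀ N : ℕ, AEStronglyMeasurable (fun x => ∑ j ∈ Finset.range N, gsq (X j) x) volume :=
    fun N => Finset.aestronglyMeasurable_fun_sum _ fun j _ => aestronglyMeasurable_gsq (hX.meas j)
  refine ⟨aestronglyMeasurable_of_tendsto_ae atTop hm hlim,
    lt_of_le_of_lt (Lp.eLpNorm_lim_le_liminf_eLpNorm hm _ hlim) (lt_of_le_of_lt ?_ h.lt_top)⟩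
  refine liminf_le_of_le (by isBoundedDefault) fun b hb => ?_
  obtain ⟨N, hN⟩ := hb.exists
  refine hN.trans ?_
  have e1 : (fun x => ∑ j ∈ Finset.range N, gsq (X j) x) =
      ∑ p ∈ Finset.range N ×ˢ (Finset.univ : Finset (Fin 3)), fun x => X p.1 p.2 x ^ 2 := by
    funext x
    simp [gsq, Finset.sum_product]
  rw [e1]
  refine (eLpNorm_sum_le (fun p _ => (hX.meas p.1 p.2).pow 2) (by norm_num)).trans ?_
  simp only [eLp_sq_three]
  rw [Finset.sum_product]
  exact ENNReal.sum_le_tsum _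

end Vale.Agent.P363.Reg
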