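import Vale.Agent.P363.KS.Reg.Majorant

/-!
P363: away from the singular set the orbitals are continuously differentiable, with bounded sums of
the squared derivatives, and the potential is bounded.
-/

noncomputable section

namespace Vale.Agent.P363.Reg

open MeasureTheory Filter Set Metric
open scoped BigOperators Topology ENNReal

namespace Family

variable {v n ln : Space → ℝ} {ψ : ℕ → Space → ℝ} {G : ℕ → Fin 3 → Space → ℝ} {e : ℕ → ℝ}
  {μ M : ℝ}

/-- Continuous differentiability and the bounds near a point. -/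
lemma local_c1 (D : Family v n ln ψ G e μ M) (hS : SobolevSixStmt) (hH : HessTestStmt)
    {U : Set Space} (hl : ∀ K, IsCompact K → K ⊆ U → ∃ C : ℝ, ∀ᵐ x, x ∈ K → |ln x| ≤ C)
    {ψ' : ℕ → Space → ℝ} (hc : ∀ j, Continuous (ψ' j)) (he : ∀ j, ψ' j =ᵐ[volume] ψ j)
    {x₀ : Space} {R : ℝ} (hR : 0 < R) (hRU : closedBall x₀ R ⊆ U) :
    (∀ j, ContDiffOn ℝ 1 (ψ' j) (ball x₀ (R / 4))) ∧
      ∃ C : ℝ, (∀ x ∈ ball x₀ (R / 4), ∀ a N,
        ∑ j ∈ Finset.range N, deriv3 a (ψ' j) x ^ 2 ≤ C) ∧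
        ∀ᵐ x, x ∈ ball x₀ (R / 4) → |v x| ≤ C := by
  have hlap : ∀ p : ℝ≥0∞, LocMemLp p (closedBall x₀ R) ln := fun p K hK hKU => by
    obtain ⟨C, hC⟩ := hl K hK (hKU.trans hRU)
    have : IsFiniteMeasure (volume.restrict K) := isFiniteMeasure_restrict.2 hK.measure_lt_top.ne
    exact MemLp.of_bound (D.lap_two K hK (subset_univ _)).1 C
      ((ae_restrict_iff' hK.measurableSet).2 hC)
  have hv3 := D.pot_of_grad2 ((D.grad2_three hS hH).mono (subset_univ _)) (hlap 3)
  have hg4 := D.grad2_four (r := 3 * R / 4) (by linarith) (by linarith)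
    ((D.srcBound_loc hv3) _ (isCompact_closedBall x₀ R) subset_rfl)
  have hv4 := D.pot_of_grad2 (U := ball x₀ (3 * R / 4)) (p := 4)
    (fun K _ hKU => hg4.mono_measure (Measure.restrict_mono hKU le_rfl))
    ((hlap 4).mono ((ball_subset_ball (by linarith)).trans ball_subset_closedBall))
  have hB4 : MemLp (srcBound v n M) 4 (volume.restrict (closedBall x₀ (R / 2))) :=
    D.srcBound_loc hv4 _ (isCompact_closedBall _ _) (closedBall_subset_ball (by linarith))
  obtain ⟨α, -, hα⟩ := Yuk.localC1 4 (by norm_num)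
  obtain ⟨C, hC⟩ := hα (R / 4) (R / 2) (by linarith) (by linarith)
  set W := ball x₀ (R / 4)
  set I := ∫ y in ball x₀ (R / 2), Real.sqrt (n y)
  set J := (eLpNorm (srcBound v n M) 4 (volume.restrict (ball x₀ (R / 2)))).toReal
  have hB4' : MemLp (srcBound v n M) 4 (volume.restrict (ball x₀ (R / 2))) :=
    hB4.mono_measure (Measure.restrict_mono ball_subset_closedBall le_rfl)
  have key : ∀ (N : ℕ) (c : Fin N → ℝ), ∃ g : Space → ℝ, ContDiff ℝ 1 g ∧
      EqOn (fun y => ∑ i, c i * ψ' (i : ℕ) y) g W ∧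
      ∀ x ∈ W, ∀ a, |deriv3 a g x| ≤ |C| * (Real.sqrt (∑ i, c i ^ 2) * (I + J)) := by
    intro N c
    obtain ⟨hW, -, hb⟩ := D.comb (fun i : Fin N => (i : ℕ)) Fin.val_injective c
    set f : Space → ℝ := fun y => ∑ i, c i * ψ (i : ℕ) y
    set h : Space → ℝ := fun y => ∑ i : Fin N, c i * (2 * (v y - e i) * ψ (i : ℕ) y)
    set L := Real.sqrt (∑ i, c i ^ 2)
    have hL : 0 ≤ L := Real.sqrt_nonneg _
    have hf : IntegrableOn f (ball x₀ (R / 2)) :=
      (hW.1.integrableOn_compact_subset (subset_univ _) (isCompact_closedBall x₀ (R / 2))).mono_set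
        ball_subset_closedBall
    have hhm : AEStronglyMeasurable h (volume.restrict (ball x₀ (R / 2))) := by
      have := hW.2.1.aestronglyMeasurable
      rw [Measure.restrict_univ] at this
      exact this.restrict
    have hh : MemLp h 4 (volume.restrict (ball x₀ (R / 2))) :=
      hB4'.of_le_mul (c := L) hhm (ae_restrict_of_ae (hb.mono fun y hy => by
        rw [Real.norm_eq_abs, Real.norm_eq_abs, abs_of_nonneg (D.srcBound_nonneg y)]
        exact hy.2))
    obtain ⟨g, hg, hge, hgb⟩ := hC x₀ f h (hW.mono (subset_univ _)) hf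
      (by rwa [ENNReal.ofReal_ofNat])
    refine ⟨g, hg, ?_, fun x hx a => (((hgb x hx).2 a).1).trans ?_⟩
    · refine Measure.eqOn_open_of_ae_eq (EventuallyEq.trans ?_ hge) isOpen_ball
        (continuous_finsetSum _ fun i _ => (hc _).const_mul (c i)).continuousOn hg.continuous.continuousOn
      refine ae_restrict_of_ae ?_
      filter_upwards [ae_all_iff.2 fun i : Fin N => he i] with y hy
      simp only [hy, f]
    · have hd : ballData (ENNReal.ofReal 4) x₀ (R / 2) f h ≤ L * (I + J) := by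
        rw [ballData, mul_add]
        refine add_le_add ?_ ?_
        · rw [← integral_const_mul]
          refine integral_mono_ae hf.abs ?_ (ae_restrict_of_ae (hb.mono fun y hy => hy.1))
          exact (D.sqrt_cont.continuousOn.integrableOn_compact
            (isCompact_closedBall x₀ (R / 2))).mono_set ball_subset_closedBall |>.const_mul L
        · rw [ENNReal.ofReal_ofNat]
          have : eLpNorm h 4 (volume.restrict (ball x₀ (R / 2))) ≤
              ENNReal.ofReal L * eLpNorm (srcBound v n M) 4 (volume.restrict (ball x₀ (R / 2))) :=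
            eLpNorm_le_mul_eLpNorm_of_ae_le_mul (ae_restrict_of_ae (hb.mono fun y hy => by
              rw [Real.norm_eq_abs, Real.norm_eq_abs, abs_of_nonneg (D.srcBound_nonneg y)]
              exact hy.2)) 4
          refine (ENNReal.toReal_mono (ENNReal.mul_ne_top ENNReal.ofReal_ne_top
            hB4'.eLpNorm_ne_top) this).trans_eq ?_
          rw [ENNReal.toReal_mul, ENNReal.toReal_ofReal hL]
      have h0 : 0 ≤ ballData (ENNReal.ofReal 4) x₀ (R / 2) f h :=
        add_nonneg (integral_nonneg fun y => abs_nonneg _) ENNReal.toReal_nonneg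
      exact (mul_le_mul_of_nonneg_right (le_abs_self C) h0).trans
        (mul_le_mul_of_nonneg_left hd (abs_nonneg C))
  have hc1 : ∀ j, ContDiffOn ℝ 1 (ψ' j) W := fun j => by
    obtain ⟨g, hg, hge, -⟩ := key (j + 1) fun i => if (i : ℕ) = j then 1 else 0
    refine hg.contDiffOn.congr fun y hy => ?_
    rw [← hge hy]
    simp only
    rw [Finset.sum_eq_single (⟨j, Nat.lt_succ_self j⟩ : Fin (j + 1))]
    · simp
    · intro i _ hi
      rw [if_neg fun h => hi (Fin.ext h), zero_mul]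
    · simp
  set B := |C| * (I + J)
  have hB : 0 ≤ B := mul_nonneg (abs_nonneg _)
    (add_nonneg (integral_nonneg fun y => Real.sqrt_nonneg _) ENNReal.toReal_nonneg)
  have hgrad : ∀ x ∈ W, ∀ a N, ∑ j ∈ Finset.range N, deriv3 a (ψ' j) x ^ 2 ≤ B ^ 2 := by
    intro x hx a N
    obtain ⟨g, -, hge, hgb⟩ := key N fun i => deriv3 a (ψ' i) x
    have ed : deriv3 a g x = ∑ i : Fin N, deriv3 a (ψ' i) x ^ 2 := by
      rw [deriv3, ← (hge.eventuallyEq_of_mem (isOpen_ball.mem_nhds hx)).fderiv_eq]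
      rw [fderiv_fun_sum fun (i : Fin N) _ =>
        (((hc1 i).contDiffAt (isOpen_ball.mem_nhds hx)).differentiableAt one_ne_zero).const_mul _]
      simp only [sum_apply]
      refine Finset.sum_congr rfl fun i _ => ?_
      rw [fderiv_const_mul (((hc1 i).contDiffAt (isOpen_ball.mem_nhds hx)).differentiableAt
        one_ne_zero)]
      simp [deriv3, sq]
    have h := hgb x hx a
    rw [ed] at h
    rw [← Fin.sum_univ_eq_sum_range (fun j => deriv3 a (ψ' j) x ^ 2)]
    set S := ∑ i : Fin N, deriv3 a (ψ' i) x ^ 2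
    have hS0 : 0 ≤ S := Finset.sum_nonneg fun i _ => sq_nonneg _
    rw [abs_of_nonneg hS0] at h
    have h' : S ≤ Real.sqrt S * B := h.trans_eq (by simp only [B]; ring)
    nlinarith [Real.sq_sqrt hS0, Real.sqrt_nonneg S, sq_nonneg (Real.sqrt S - B)]
  obtain ⟨Cl, hCl⟩ := hl _ (isCompact_closedBall x₀ R) hRU
  obtain ⟨Cn, hCn⟩ := (isCompact_closedBall x₀ R).exists_bound_of_continuousOn
    ((D.cont.const_mul 2).inv₀ fun x => (mul_pos two_pos (D.pos x)).ne').continuousOn
  obtain ⟨Cm, hCm⟩ := (isCompact_closedBall x₀ R).exists_bound_of_continuousOn D.cont.continuousOn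
  set T := max (B ^ 2) ((|Cl| / 2 + 3 * B ^ 2 + 2 * (M * |Cm|)) * |Cn|)
  refine ⟨hc1, T, fun x hx a N => (hgrad x hx a N).trans (le_max_left _ _), ?_⟩
  have hG : ∀ j a, G j a =ᵐ[volume.restrict W] deriv3 a (ψ' j) := fun j =>
    ((D.eigen j).h1.grad.mono (subset_univ W)).congr_ae isOpen_ball
      (ae_restrict_of_ae (he j).symm) (fun _ => EventuallyEq.rfl) |>.unique isOpen_ball
        (HasWeakGrad.of_contDiffOn isOpen_ball (hc1 j))
  filter_upwards [(ae_restrict_iff' measurableSet_ball).1 (ae_all_iff.2 fun p : ℕ × Fin 3 =>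
    hG p.1 p.2), D.identity.1, D.identity.2.2, D.level_sum, hCl] with x hxG hs hid hE hln hx
  have hxK : x ∈ closedBall x₀ R :=
    ball_subset_closedBall (ball_subset_ball (by linarith) hx)
  have hg : grad2 G x ≤ 3 * B ^ 2 := by
    refine le_of_tendsto' hs.hasSum.tendsto_sum_nat fun N => ?_
    simp only [gsq]
    rw [Finset.sum_comm]
    refine (Finset.sum_le_card_nsmul _ _ (B ^ 2) fun a _ => ?_).trans_eq (by simp)
    refine le_trans (le_of_eq ?_) (hgrad x hx a N)
    exact Finset.sum_congr rfl fun j _ => by rw [hxG hx (j, a)]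
  have hg0 : 0 ≤ grad2 G x := tsum_nonneg fun j => gsq_nonneg _ _
  have hn := mul_pos two_pos (D.pos x)
  have e1 : v x = (ln x / 2 - grad2 G x + 2 * levelSum e ψ x) * (2 * n x)⁻¹ := by
    rw [← div_eq_mul_inv, eq_div_iff hn.ne']; linarith
  refine le_trans ?_ (le_max_right _ _)
  rw [e1, abs_mul]
  have hnm : n x ≤ |Cm| := (le_abs_self _).trans ((hCm x hxK).trans (le_abs_self _))
  refine mul_le_mul ?_ ((hCn x hxK).trans (le_abs_self _)) (abs_nonneg _) (by
    have := D.M_nonneg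
    positivity)
  have h1 := (hln hxK).trans (le_abs_self Cl)
  have h2 : |levelSum e ψ x| ≤ M * |Cm| := hE.2.1.trans (mul_le_mul_of_nonneg_left hnm D.M_nonneg)
  rw [abs_le] at h1 h2 ⊢
  constructor <;> linarith

/-- Regular representatives of the family. -/
theorem exists_regular (D : Family v n ln ψ G e μ M) (hS : SobolevSixStmt) (hH : HessTestStmt)
    {U : Set Space} (hU : IsOpen U)
    (hl : ∀ K, IsCompact K → K ⊆ U → ∃ C : ℝ, ∀ᵐ x, x ∈ K → |ln x| ≤ C) :
    ∃ ψ' : ℕ → Space → ℝ, (∀ j, Continuous (ψ' j)) ∧ (∀ j, ψ' j =ᵐ[volume] ψ j) ∧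
      (∀ j, ContDiffOn ℝ 1 (ψ' j) U) ∧ ∀ K, IsCompact K → K ⊆ U → ∃ C : ℝ,
        (∀ x ∈ K, ∀ a N, ∑ j ∈ Finset.range N, deriv3 a (ψ' j) x ^ 2 ≤ C) ∧
          ∀ᵐ x, x ∈ K → |v x| ≤ C := by
  choose ψ' hc he using fun j => D.exists_cont (D.pot_two hS hH) j
  have loc : ∀ x ∈ U, ∃ W, IsOpen W ∧ x ∈ W ∧ W ⊆ U ∧ (∀ j, ContDiffOn ℝ 1 (ψ' j) W) ∧
      ∃ C : ℝ, (∀ y ∈ W, ∀ a N, ∑ j ∈ Finset.range N, deriv3 a (ψ' j) y ^ 2 ≤ C) ∧
        ∀ᵐ y, y ∈ W → |v y| ≤ C := by
    intro x hx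
    obtain ⟨R, hR, hRU⟩ := nhds_basis_closedBall.mem_iff.1 (hU.mem_nhds hx)
    exact ⟨ball x (R / 4), isOpen_ball, mem_ball_self (by linarith),
      (ball_subset_ball (by linarith)).trans (ball_subset_closedBall.trans hRU),
      D.local_c1 hS hH hl hc he hR hRU⟩
  refine ⟨ψ', hc, he, fun j x hx => ?_, fun K hK hKU => ?_⟩
  · obtain ⟨W, hW, hxW, -, hd, -⟩ := loc x hx
    exact ((hd j).contDiffAt (hW.mem_nhds hxW)).contDiffWithinAt
  refine hK.induction_on (p := fun s => ∃ C : ℝ,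
    (∀ x ∈ s, ∀ a N, ∑ j ∈ Finset.range N, deriv3 a (ψ' j) x ^ 2 ≤ C) ∧
      ∀ᵐ x, x ∈ s → |v x| ≤ C) ⟨0, by simp, by simp⟩ ?_ ?_ ?_
  · rintro s t hst ⟨C, h1, h2⟩
    exact ⟨C, fun x hx => h1 x (hst hx), h2.mono fun x h hx => h (hst hx)⟩
  · rintro s t ⟨C, h1, h2⟩ ⟨C', h1', h2'⟩
    refine ⟨max C C', fun x hx a N => hx.elim (fun hx => (h1 x hx a N).trans (le_max_left _ _))
      fun hx => (h1' x hx a N).trans (le_max_right _ _), ?_⟩
    filter_upwards [h2, h2'] with x g g' hx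
    exact hx.elim (fun hx => (g hx).trans (le_max_left _ _)) fun hx => (g' hx).trans (le_max_right _ _)
  · intro x hx
    obtain ⟨W, hW, hxW, -, -, C, h1, h2⟩ := loc x (hKU hx)
    exact ⟨W, mem_nhdsWithin_of_mem_nhds (hW.mem_nhds hxW), C, h1, h2⟩

end Family

end Vale.Agent.P363.Reg
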